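import Vale.Agent.P073.KW720.Struct2

/-!
# P073, block KW: rational convex tilings (edges)
-/

open Set Metric Topology Filter

namespace P073.KW

open Vale.Agent.P073.St (V)
open P073.Net P073.PR720

variable {Ω : Set V} {o : V}

/-- the cross product of the normals -/
def cr (g g' : (Fin 3 → ℚ) × ℚ) : Fin 3 → ℚ :=
  ![g.1 1 * g'.1 2 - g.1 2 * g'.1 1, g.1 2 * g'.1 0 - g.1 0 * g'.1 2,
    g.1 0 * g'.1 1 - g.1 1 * g'.1 0]

/-- the intersection of two non-parallel rational planes is a rational line -/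
theorem exists_line (o : V) {g g' : (Fin 3 → ℚ) × ℚ} (h : cr g g' ≠ 0) :
    ∃ p d : Fin 3 → ℚ, d ≠ 0 ∧ (∀ y : V, rf o g y = 0 → rf o g' y = 0 →
      ∃ t : ℝ, ∀ k, y k = o k + p k + t * d k) ∧ (∑ k, (g.1 k : ℝ) * d k = 0) ∧
      ∑ k, (g'.1 k : ℝ) * d k = 0 := by
  set d := cr g g' with hd
  have hd0 : d 0 = g.1 1 * g'.1 2 - g.1 2 * g'.1 1 := rfl
  have hd1 : d 1 = g.1 2 * g'.1 0 - g.1 0 * g'.1 2 := rfl
  have hd2 : d 2 = g.1 0 * g'.1 1 - g.1 1 * g'.1 0 := rfl
  set D : ℚ := d 0 ^ 2 + d 1 ^ 2 + d 2 ^ 2 with hD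
  have hDpos : 0 < D := by
    by_contra hcon
    push Not at hcon
    have h0 : d 0 ^ 2 = 0 := by nlinarith [sq_nonneg (d 0), sq_nonneg (d 1), sq_nonneg (d 2)]
    have h1 : d 1 ^ 2 = 0 := by nlinarith [sq_nonneg (d 0), sq_nonneg (d 1), sq_nonneg (d 2)]
    have h2 : d 2 ^ 2 = 0 := by nlinarith [sq_nonneg (d 0), sq_nonneg (d 1), sq_nonneg (d 2)]
    apply h
    funext k
    fin_cases k
    · exact pow_eq_zero_iff (two_ne_zero) |>.1 h0
    · exact pow_eq_zero_iff (two_ne_zero) |>.1 h1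
    · exact pow_eq_zero_iff (two_ne_zero) |>.1 h2
  -- the base point
  set a := g.1
  set b := g'.1
  set p : Fin 3 → ℚ := ![
    (g.2 * (b 1 * d 2 - b 2 * d 1) + g'.2 * (d 1 * a 2 - d 2 * a 1)) / D,
    (g.2 * (b 2 * d 0 - b 0 * d 2) + g'.2 * (d 2 * a 0 - d 0 * a 2)) / D,
    (g.2 * (b 0 * d 1 - b 1 * d 0) + g'.2 * (d 0 * a 1 - d 1 * a 0)) / D] with hp
  have hp0 : p 0 * D = g.2 * (b 1 * d 2 - b 2 * d 1) + g'.2 * (d 1 * a 2 - d 2 * a 1) :=
    div_mul_cancel₀ _ hDpos.ne'
  have hp1 : p 1 * D = g.2 * (b 2 * d 0 - b 0 * d 2) + g'.2 * (d 2 * a 0 - d 0 * a 2) :=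
    div_mul_cancel₀ _ hDpos.ne'
  have hp2 : p 2 * D = g.2 * (b 0 * d 1 - b 1 * d 0) + g'.2 * (d 0 * a 1 - d 1 * a 0) :=
    div_mul_cancel₀ _ hDpos.ne'
  have z1 : a 0 * d 0 + a 1 * d 1 + a 2 * d 2 = 0 := by rw [hd0, hd1, hd2]; ring
  have z2 : b 0 * d 0 + b 1 * d 1 + b 2 * d 2 = 0 := by rw [hd0, hd1, hd2]; ring
  refine ⟨p, d, h, fun y hy hy' => ?_, ?_, ?_⟩
  rotate_left
  · rw [Fin.sum_univ_three]; exact_mod_cast z1
  · rw [Fin.sum_univ_three]; exact_mod_cast z2
  -- cast everything to the reals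
  have D' : (D : ℝ) = (d 0 : ℝ) ^ 2 + (d 1 : ℝ) ^ 2 + (d 2 : ℝ) ^ 2 := by rw [hD]; push_cast; ring
  have hDr : (0:ℝ) < D := by exact_mod_cast hDpos
  have r0 : (p 0 : ℝ) * D = g.2 * (b 1 * d 2 - b 2 * d 1) + g'.2 * (d 1 * a 2 - d 2 * a 1) := by
    exact_mod_cast hp0
  have r1 : (p 1 : ℝ) * D = g.2 * (b 2 * d 0 - b 0 * d 2) + g'.2 * (d 2 * a 0 - d 0 * a 2) := by
    exact_mod_cast hp1
  have r2 : (p 2 : ℝ) * D = g.2 * (b 0 * d 1 - b 1 * d 0) + g'.2 * (d 0 * a 1 - d 1 * a 0) := by
    exact_mod_cast hp2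
  have s0 : (d 0 : ℝ) = a 1 * b 2 - a 2 * b 1 := by exact_mod_cast hd0
  have s1 : (d 1 : ℝ) = a 2 * b 0 - a 0 * b 2 := by exact_mod_cast hd1
  have s2 : (d 2 : ℝ) = a 0 * b 1 - a 1 * b 0 := by exact_mod_cast hd2
  have q1 : (a 0 : ℝ) * (y 0 - o 0) + a 1 * (y 1 - o 1) + a 2 * (y 2 - o 2) = g.2 := by
    have := hy; unfold rf at this; rw [Fin.sum_univ_three] at this; linarith
  have q2 : (b 0 : ℝ) * (y 0 - o 0) + b 1 * (y 1 - o 1) + b 2 * (y 2 - o 2) = g'.2 := by
    have := hy'; unfold rf at this; rw [Fin.sum_univ_three] at this; linarith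
  refine ⟨((y 0 - o 0) * d 0 + (y 1 - o 1) * d 1 + (y 2 - o 2) * d 2) / D, fun k => ?_⟩
  have key : ∀ k, D * (y k - o k) = D * p k +
      ((y 0 - o 0) * d 0 + (y 1 - o 1) * d 1 + (y 2 - o 2) * d 2) * d k := by
    intro k
    have e : ∀ c : ℝ, (D : ℝ) * c = c * D := fun c => mul_comm _ _
    fin_cases k
    · show (D : ℝ) * (y 0 - o 0) = D * p 0 + _ * (d 0 : ℝ)
      rw [e (p 0), r0, D', ← q1, ← q2, s0, s1, s2]
      ring
    · show (D : ℝ) * (y 1 - o 1) = D * p 1 + _ * (d 1 : ℝ)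
      rw [e (p 1), r1, D', ← q1, ← q2, s0, s1, s2]
      ring
    · show (D : ℝ) * (y 2 - o 2) = D * p 2 + _ * (d 2 : ℝ)
      rw [e (p 2), r2, D', ← q1, ← q2, s0, s1, s2]
      ring
  have := key k
  field_simp
  linarith

/-- parallel normals -/
theorem rl_eq_smul_of_cr {g g' : (Fin 3 → ℚ) × ℚ} (h : cr g g' = 0) (hg : g.1 ≠ 0) :
    ∃ s : ℝ, ∀ v, rl g' v = s * rl g v := by
  obtain ⟨k, hk⟩ : ∃ k, g.1 k ≠ 0 := by
    by_contra hcon
    push Not at hcon
    exact hg (funext hcon)
  have h0 : g.1 1 * g'.1 2 - g.1 2 * g'.1 1 = 0 := congrFun h 0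
  have h1 : g.1 2 * g'.1 0 - g.1 0 * g'.1 2 = 0 := congrFun h 1
  have h2 : g.1 0 * g'.1 1 - g.1 1 * g'.1 0 = 0 := congrFun h 2
  have h0' : (g.1 1 : ℝ) * g'.1 2 - g.1 2 * g'.1 1 = 0 := by exact_mod_cast h0
  have h1' : (g.1 2 : ℝ) * g'.1 0 - g.1 0 * g'.1 2 = 0 := by exact_mod_cast h1
  have h2' : (g.1 0 : ℝ) * g'.1 1 - g.1 1 * g'.1 0 = 0 := by exact_mod_cast h2
  have hk' : (g.1 k : ℝ) ≠ 0 := by exact_mod_cast hk
  refine ⟨g'.1 k / g.1 k, fun v => ?_⟩
  have key : (g.1 k : ℝ) * rl g' v = g'.1 k * rl g v := by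
    unfold rl
    rw [Fin.sum_univ_three, Fin.sum_univ_three]
    fin_cases k
    · show (g.1 0 : ℝ) * _ = g'.1 0 * _
      linear_combination v 1 * h2' - v 2 * h1'
    · show (g.1 1 : ℝ) * _ = g'.1 1 * _
      linear_combination v 2 * h0' - v 0 * h2'
    · show (g.1 2 : ℝ) * _ = g'.1 2 * _
      linear_combination v 0 * h1' - v 1 * h0'
  field_simp
  linarith

theorem continuous_rl (g : (Fin 3 → ℚ) × ℚ) : Continuous (rl g) := by
  unfold rl
  fun_prop

namespace Tiling

variable (T : Tiling Ω o)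

/-- at a point in three cells there are two active constraints with independent normals -/
theorem exists_pair {x : V} {r : ℝ} (hr : 0 < r)
    {H : T.I → Finset ((Fin 3 → ℚ) × ℚ)} (hH : ∀ i, T.C i = {y | ∀ h ∈ H i, rf o h y ≤ 0})
    (hact : ∀ i, x ∈ T.C i → ∀ h ∈ H i, rf o h x = 0 ∨ ∀ y ∈ ball x r, rf o h y < 0)
    {i j k : T.I} (hij : i ≠ j) (hik : i ≠ k) (hjk : j ≠ k) (hi : x ∈ T.C i) (hj : x ∈ T.C j)
    (hk : x ∈ T.C k) : ∃ a b g g', x ∈ T.C a ∧ x ∈ T.C b ∧ g ∈ H a ∧ g' ∈ H b ∧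
      rf o g x = 0 ∧ rf o g' x = 0 ∧ cr g g' ≠ 0 := by
  classical
  by_contra hcon
  push Not at hcon
  by_cases hz : ∃ a g, x ∈ T.C a ∧ g ∈ H a ∧ rf o g x = 0 ∧ g.1 ≠ 0
  · obtain ⟨a, g, ha, hg, hgx, hg0⟩ := hz
    -- every cell is on one side
    have key : ∀ b, x ∈ T.C b → ∃ s : ℝ, (s = 1 ∨ s = -1) ∧
        ∀ y ∈ ball x r, s * rl g (y - x) ≤ 0 → y ∈ T.C b := by
      intro b hb
      -- an interior point near `x`
      obtain ⟨z, hz, hzi⟩ := T.open_inter hb (ball_mem_nhds x hr)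
      -- we may assume that `rl g (z - x) ≠ 0`
      have hcr : ∀ g' ∈ H b, rf o g' x = 0 → ∃ s : ℝ, ∀ v, rl g' v = s * rl g v := fun g' hg' h' =>
        rl_eq_smul_of_cr (hcon a b g g' ha hb hg hg' hgx h') hg0
      have hz' : ∃ z ∈ T.C b, rl g (z - x) ≠ 0 := by
        by_contra hcon2
        push Not at hcon2
        -- the interior would be in a hyperplane
        have hlin : ∀ v : V, rl g v = 0 := by
          intro v
          have hc : Continuous fun t : ℝ => z + t • v := by fun_prop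
          have h1 : ∀ᶠ t in 𝓝 (0:ℝ), z + t • v ∈ interior (T.C b) := by
            refine hc.continuousAt.preimage_mem_nhds ?_
            rw [zero_smul, add_zero]
            exact isOpen_interior.mem_nhds hzi
          have h2 : ∀ᶠ t in 𝓝[>] (0:ℝ), z + t • v ∈ interior (T.C b) :=
            h1.filter_mono nhdsWithin_le_nhds
          obtain ⟨t, ht, ht0⟩ := (h2.and self_mem_nhdsWithin).exists
          have h3 := hcon2 _ (interior_subset ht)
          have h4 := hcon2 _ (interior_subset hzi)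
          rw [← rf_sub o g x] at h3 h4
          rw [rf_add_smul] at h3
          have h5 : t * rl g v = 0 := by linarith
          rcases mul_eq_zero.1 h5 with h6 | h6
          · exact absurd h6 (ne_of_gt ht0)
          · exact h6
        apply hg0
        funext k
        have := hlin (Pi.single k 1)
        unfold rl at this
        rw [Finset.sum_eq_single k (fun b _ hb => by rw [Pi.single_eq_of_ne hb]; ring)
          (fun h => absurd (Finset.mem_univ k) h)] at this
        rw [Pi.single_eq_same, mul_one] at this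
        exact_mod_cast this
      obtain ⟨z, hzC, hz0⟩ := hz'
      -- the sign of the side
      refine ⟨if rl g (z - x) < 0 then 1 else -1, ?_, ?_⟩
      · split_ifs
        · exact Or.inl rfl
        · exact Or.inr rfl
      · intro y hy hys
        rw [hH b]
        intro g' hg'
        rcases hact b hb g' hg' with h1 | h1
        · obtain ⟨s, hs⟩ := hcr g' hg' h1
          have h2 : rf o g' z ≤ 0 := by
            rw [hH b] at hzC; exact hzC g' hg'
          have h3 : s * rl g (z - x) ≤ 0 := by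
            rw [← hs, ← rf_sub o g' x, h1, sub_zero]; exact h2
          have h4 : rf o g' y = s * rl g (y - x) := by
            rw [← hs, ← rf_sub o g' x, h1, sub_zero]
          rw [h4]
          split_ifs at hys with hlt
          · have hs0 : 0 ≤ s := by
              by_contra hneg
              push Not at hneg
              have := mul_pos_of_neg_of_neg hneg hlt
              linarith
            rw [one_mul] at hys
            exact mul_nonpos_of_nonneg_of_nonpos hs0 hys
          · have hgt : 0 < rl g (z - x) := lt_of_le_of_ne (not_lt.1 hlt) hz0.symm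
            have hs0 : s ≤ 0 := by
              by_contra hneg
              push Not at hneg
              have := mul_pos hneg hgt
              linarith
            exact mul_nonpos_of_nonpos_of_nonneg hs0 (by linarith)
        · exact (h1 y hy).le
    -- two cells on the same side overlap
    have same : ∀ {b c : T.I} {s : ℝ}, b ≠ c → (s = 1 ∨ s = -1) →
        (∀ y ∈ ball x r, s * rl g (y - x) ≤ 0 → y ∈ T.C b) →
        (∀ y ∈ ball x r, s * rl g (y - x) ≤ 0 → y ∈ T.C c) → False := by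
      intro b c s hbc hs h1 h2
      -- a point with `s * rl g (y - x) < 0`
      obtain ⟨v, hv⟩ : ∃ v, rl g v ≠ 0 := by
        obtain ⟨k, hk⟩ : ∃ k, g.1 k ≠ 0 := by
          by_contra hcon
          push Not at hcon
          exact hg0 (funext hcon)
        refine ⟨Pi.single k 1, ?_⟩
        unfold rl
        rw [Finset.sum_eq_single k (fun b _ hb => by rw [Pi.single_eq_of_ne hb]; ring)
          (fun h => absurd (Finset.mem_univ k) h), Pi.single_eq_same, mul_one]
        exact_mod_cast hk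
      have hU : IsOpen (ball x r ∩ {y | s * rl g (y - x) < 0}) := by
        refine isOpen_ball.inter (isOpen_lt ?_ continuous_const)
        exact continuous_const.mul ((continuous_rl g).comp (by fun_prop))
      obtain ⟨y, hy⟩ : (ball x r ∩ {y | s * rl g (y - x) < 0}).Nonempty := by
        have hc : Continuous fun t : ℝ => x + t • v := by fun_prop
        have h3 : ∀ᶠ t in 𝓝 (0:ℝ), x + t • v ∈ ball x r := by
          refine hc.continuousAt.preimage_mem_nhds ?_
          rw [zero_smul, add_zero]; exact ball_mem_nhds x hr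
        obtain ⟨ε, hε, hb⟩ := Metric.mem_nhds_iff.1 h3
        have h4 : ∀ t : ℝ, |t| < ε → x + t • v ∈ ball x r := fun t ht => hb (by
          rw [mem_ball, Real.dist_eq, sub_zero]; exact ht)
        have h5 : ∀ t : ℝ, rl g (x + t • v - x) = t * rl g v := fun t => by
          rw [add_sub_cancel_left, rl_smul]
        have hs2 : s ≠ 0 := by rcases hs with h | h <;> rw [h] <;> norm_num
        rcases lt_or_gt_of_ne (mul_ne_zero hs2 hv) with h6 | h6
        · refine ⟨x + (ε / 2) • v, h4 _ (by rw [abs_of_pos (half_pos hε)]; linarith), ?_⟩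
          show s * rl g (x + (ε / 2) • v - x) < 0
          rw [h5]
          nlinarith [half_pos hε]
        · refine ⟨x + (-(ε / 2)) • v, h4 _ (by
            rw [abs_neg, abs_of_pos (half_pos hε)]; linarith), ?_⟩
          show s * rl g (x + (-(ε / 2)) • v - x) < 0
          rw [h5]
          nlinarith [half_pos hε]
      have e1 : y ∈ interior (T.C b) :=
        interior_maximal (fun z hz => h1 z hz.1 (le_of_lt hz.2)) hU hy
      have e2 : y ∈ T.C c := h2 y hy.1 (le_of_lt hy.2)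
      exact hbc (T.eq_of_interior e1 e2)
    obtain ⟨s1, hs1, k1⟩ := key i hi
    obtain ⟨s2, hs2, k2⟩ := key j hj
    obtain ⟨s3, hs3, k3⟩ := key k hk
    rcases hs1 with rfl | rfl <;> rcases hs2 with rfl | rfl <;> rcases hs3 with rfl | rfl
    · exact same hij (Or.inl rfl) k1 k2
    · exact same hij (Or.inl rfl) k1 k2
    · exact same hik (Or.inl rfl) k1 k3
    · exact same hjk (Or.inr rfl) k2 k3
    · exact same hjk (Or.inl rfl) k2 k3
    · exact same hik (Or.inr rfl) k1 k3
    · exact same hij (Or.inr rfl) k1 k2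
    · exact same hij (Or.inr rfl) k1 k2
  · push Not at hz
    have key : ∀ b, x ∈ T.C b → ball x r ⊆ T.C b := by
      intro b hb y hy
      rw [hH b]
      intro g' hg'
      rcases hact b hb g' hg' with h1 | h1
      · have h2 := hz b g' hb hg' h1
        have h3 : rf o g' y = rf o g' x := by
          have := rf_sub o g' x y
          have h4 : rl g' (y - x) = 0 := by unfold rl; simp [h2]
          linarith
        rw [h3, h1]
      · exact (h1 y hy).le
    have h1 : x ∈ interior (T.C i) := interior_maximal (key i hi) isOpen_ball (mem_ball_self hr)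
    exact hij (T.eq_of_interior h1 hj)

end Tiling

end P073.KW
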