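import Vale.Agent.P073.KW720.Edge

/-!
# P073, block KW: rational convex tilings (edges, continued)
-/

open Set Metric Topology Filter

namespace P073.KW

open Vale.Agent.P073.St (V)
open P073.Net P073.PR720

variable {Ω : Set V} {o : V}

/-- in dimension three: the kernel of a non-zero functional is spanned by two independent
vectors of it -/
theorem mem_span_of_ker {n : V →L[ℝ] ℝ} (hn : n ≠ 0) {v w : V} (hv : n v = 0) (hw : n w = 0)
    (hind : LinearIndependent ℝ ![v, w]) {u : V} (hu : n u = 0) : ∃ α β : ℝ, α • v + β • w = u := by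
  have h1 : Submodule.span ℝ {v, w} ≤ LinearMap.ker n.toLinearMap := by
    rw [Submodule.span_le]
    rintro z (rfl | h)
    · exact hv
    · rw [mem_singleton_iff.1 h]; exact hw
  have h2 : Module.finrank ℝ (Submodule.span ℝ ({v, w} : Set V)) = 2 := by
    have h := finrank_span_eq_card hind
    rw [Fintype.card_fin] at h
    have e : range ![v, w] = ({v, w} : Set V) := by
      rw [Matrix.range_cons, Matrix.range_cons, Matrix.range_empty, union_empty]
      rfl
    rw [e] at h
    exact h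
  have h3 : Module.finrank ℝ (LinearMap.ker n.toLinearMap) = 2 := by
    have h4 := LinearMap.finrank_range_add_finrank_ker n.toLinearMap
    have h5 : Module.finrank ℝ (LinearMap.range n.toLinearMap) = 1 := by
      have : LinearMap.range n.toLinearMap = ⊤ := by
        obtain ⟨z, hz⟩ := Tiling.exists_pos hn
        rw [LinearMap.range_eq_top]
        intro c
        refine ⟨(c / n z) • z, ?_⟩
        show n ((c / n z) • z) = c
        rw [map_smul, smul_eq_mul, div_mul_cancel₀ _ hz.ne']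
      rw [this, finrank_top, Module.finrank_self]
    rw [h5] at h4
    have h6 : Module.finrank ℝ V = 3 := by
      show Module.finrank ℝ (Fin 3 → ℝ) = 3
      simp
    omega
  have h4 : Submodule.span ℝ {v, w} = LinearMap.ker n.toLinearMap :=
    Submodule.eq_of_le_of_finrank_eq h1 (h2.trans h3.symm)
  have h5 : u ∈ Submodule.span ℝ ({v, w} : Set V) := by rw [h4]; exact hu
  exact Submodule.mem_span_pair.1 h5

namespace Tiling

variable (T : Tiling Ω o)

/-- three cells do not have a common piece of a plane -/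
theorem not_three_plane {i j k : T.I} (hij : i ≠ j) (hik : i ≠ k) (hjk : j ≠ k) {z v w : V}
    (hind : LinearIndependent ℝ ![v, w]) {φ ψ : V → ℝ} (hφ : Continuous φ) (hψ : Continuous ψ)
    (hφ0 : φ 0 = 0) (hψ0 : ψ 0 = 0)
    (hcoord : ∀ α β : ℝ, φ (α • v + β • w) = α ∧ ψ (α • v + β • w) = β) {r : ℝ} (hr : 0 < r)
    (h : ∀ α β : ℝ, |α| < r → |β| < r → z + (α • v + β • w) ∈ T.C i ∩ T.C j ∩ T.C k) : False := by
  obtain ⟨n, c, hn, h1, h2⟩ := T.separate hij
  have hz : z ∈ T.C i ∩ T.C j ∩ T.C k := by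
    have := h 0 0 (by rw [abs_zero]; exact hr) (by rw [abs_zero]; exact hr)
    simpa using this
  have hall : ∀ y ∈ T.C i ∩ T.C j ∩ T.C k, n y = c := fun y hy =>
    le_antisymm (h1 hy.1.1) (h2 hy.1.2)
  have hzc := hall z hz
  have hr2 : |r / 2| < r := by rw [abs_of_pos (half_pos hr)]; linarith
  have hv : n v = 0 := by
    have h3 := hall _ (h (r / 2) 0 hr2 (by rw [abs_zero]; exact hr))
    rw [map_add, map_add, map_smul, map_smul, smul_eq_mul, smul_eq_mul, zero_mul, add_zero, hzc]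
      at h3
    have h4 : (r / 2) * n v = 0 := by linarith
    rcases mul_eq_zero.1 h4 with h5 | h5
    · linarith
    · exact h5
  have hw : n w = 0 := by
    have h3 := hall _ (h 0 (r / 2) (by rw [abs_zero]; exact hr) hr2)
    rw [map_add, map_add, map_smul, map_smul, smul_eq_mul, smul_eq_mul, zero_mul, zero_add, hzc]
      at h3
    have h4 : (r / 2) * n w = 0 := by linarith
    rcases mul_eq_zero.1 h4 with h5 | h5
    · linarith
    · exact h5
  -- a relative ball
  have h3 : ∀ᶠ y in 𝓝 z, |φ (y - z)| < r ∧ |ψ (y - z)| < r := by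
    have c1 : Continuous fun y => |φ (y - z)| := (hφ.comp (by fun_prop)).abs
    have c2 : Continuous fun y => |ψ (y - z)| := (hψ.comp (by fun_prop)).abs
    refine (c1.continuousAt.eventually_lt_const ?_).and (c2.continuousAt.eventually_lt_const ?_)
    · show |φ (z - z)| < r
      rw [sub_self, hφ0, abs_zero]; exact hr
    · show |ψ (z - z)| < r
      rw [sub_self, hψ0, abs_zero]; exact hr
  obtain ⟨s, hs, hb⟩ := Metric.mem_nhds_iff.1 h3
  refine T.notMem_K1_of_rel hij hn h1 h2 hz.1.1 hz.1.2 hs (fun y hy hyc => ?_)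
    ⟨i, j, k, hij, hik, hjk, hz.1.1, hz.1.2, hz.2⟩
  have hu : n (y - z) = 0 := by rw [map_sub, hyc, hzc, sub_self]
  obtain ⟨α, β, hαβ⟩ := mem_span_of_ker hn hv hw hind hu
  obtain ⟨e1, e2⟩ := hcoord α β
  rw [hαβ] at e1 e2
  obtain ⟨b1, b2⟩ := hb hy
  rw [e1] at b1
  rw [e2] at b2
  have := h α β b1 b2
  rw [hαβ, add_sub_cancel] at this
  exact this.1

/-- the common part of three cells at an edge point is on the planes of all active constraints -/
theorem triple_subset {x w : V} (hw : w ≠ 0) (hinv : T.Inv x w)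
    {H : T.I → Finset ((Fin 3 → ℚ) × ℚ)} (hH : ∀ i, T.C i = {y | ∀ h ∈ H i, rf o h y ≤ 0})
    {i j k : T.I} (hij : i ≠ j) (hik : i ≠ k) (hjk : j ≠ k) (hx : x ∈ T.C i ∩ T.C j ∩ T.C k)
    {a : T.I} (ha : x ∈ T.C a) {g : (Fin 3 → ℚ) × ℚ} (hg : g ∈ H a) (hgx : rf o g x = 0) {y : V}
    (hy : y ∈ T.C i ∩ T.C j ∩ T.C k) : rf o g y = 0 := by
  by_contra hne
  have hgw : rl g w = 0 := rl_eq_zero_of_inv hinv ha (hH a) hg hgx
  have hgv : rl g (y - x) ≠ 0 := by
    rw [← rf_sub o g x y, hgx, sub_zero]; exact hne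
  obtain ⟨k0, hk0⟩ : ∃ k0, w k0 ≠ 0 := by
    by_contra hcon
    push Not at hcon
    exact hw (funext hcon)
  set v := y - x with hv
  have hrla : ∀ α β : ℝ, rl g (α • v + β • w) = α * rl g v := by
    intro α β
    have : rl g (α • v + β • w) = rl g (α • v) + rl g (β • w) := by
      unfold rl
      rw [← Finset.sum_add_distrib]
      refine Finset.sum_congr rfl fun k _ => ?_
      rw [Pi.add_apply]; ring
    rw [this, rl_smul, rl_smul, hgw, mul_zero, add_zero]
  let φ : V → ℝ := fun u => rl g u / rl g v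
  let ψ : V → ℝ := fun u => (u k0 - (rl g u / rl g v) * v k0) / w k0
  have hφ : Continuous φ := (continuous_rl g).div_const _
  have hψ : Continuous ψ := by
    refine Continuous.div_const ?_ _
    exact (continuous_apply k0).sub (((continuous_rl g).div_const _).mul continuous_const)
  have hcoord : ∀ α β : ℝ, φ (α • v + β • w) = α ∧ ψ (α • v + β • w) = β := by
    intro α β
    have e1 : φ (α • v + β • w) = α := by
      show rl g (α • v + β • w) / rl g v = α
      rw [hrla, mul_div_cancel_right₀ _ hgv]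
    refine ⟨e1, ?_⟩
    show ((α • v + β • w) k0 - φ (α • v + β • w) * v k0) / w k0 = β
    rw [e1]
    simp only [Pi.add_apply, Pi.smul_apply, smul_eq_mul]
    field_simp
    ring
  have hrl0 : rl g 0 = 0 := by unfold rl; simp
  have hφ0 : φ 0 = 0 := by show rl g 0 / rl g v = 0; rw [hrl0, zero_div]
  have hψ0 : ψ 0 = 0 := by
    show ((0:V) k0 - (rl g 0 / rl g v) * v k0) / w k0 = 0
    rw [hrl0]; simp
  have hind : LinearIndependent ℝ ![v, w] := by
    rw [LinearIndependent.pair_iff]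
    intro s t hst
    obtain ⟨e1, e2⟩ := hcoord s t
    rw [hst] at e1 e2
    exact ⟨by rw [← e1, hφ0], by rw [← e2, hψ0]⟩
  -- small parameters
  obtain ⟨r, hr, H'⟩ := hinv
  have hconv : Convex ℝ (T.C i ∩ T.C j ∩ T.C k) := ((T.convex i).inter (T.convex j)).inter (T.convex k)
  obtain ⟨s, hs0, hs1, hsv⟩ : ∃ s : ℝ, 0 < s ∧ s ≤ 1 ∧ s * (‖v‖ + ‖w‖) < r := by
    refine ⟨min 1 (r / (2 * (‖v‖ + ‖w‖ + 1))), ?_, min_le_left _ _, ?_⟩
    · refine lt_min one_pos (by positivity)
    · have h1 : min 1 (r / (2 * (‖v‖ + ‖w‖ + 1))) * (‖v‖ + ‖w‖) ≤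
          (r / (2 * (‖v‖ + ‖w‖ + 1))) * (‖v‖ + ‖w‖) :=
        mul_le_mul_of_nonneg_right (min_le_right _ _) (by positivity)
      have h2 : (r / (2 * (‖v‖ + ‖w‖ + 1))) * (‖v‖ + ‖w‖) ≤ r / 2 := by
        rw [div_mul_eq_mul_div, div_le_div_iff₀ (by positivity) two_pos]
        nlinarith [norm_nonneg v, norm_nonneg w]
      linarith
  refine T.not_three_plane hij hik hjk (z := x + (s / 2) • v) hind hφ hψ hφ0 hψ0 hcoord
    (r := s / 2) (half_pos hs0) (fun α β hα hβ => ?_)
  have hα' := abs_lt.1 hα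
  have hβ' := abs_lt.1 hβ
  have e : x + (s / 2) • v + (α • v + β • w) = (x + (s / 2 + α) • v) + β • w := by
    rw [add_smul]; abel
  rw [e]
  have hm : x + (s / 2 + α) • v ∈ T.C i ∩ T.C j ∩ T.C k := by
    have h1 := hconv hx hy (show (0:ℝ) ≤ 1 - (s / 2 + α) by linarith) (show 0 ≤ s / 2 + α by linarith)
      (by ring)
    have e2 : (1 - (s / 2 + α)) • x + (s / 2 + α) • y = x + (s / 2 + α) • v := by
      rw [hv]; module
    rwa [e2] at h1
  have hb1 : x + (s / 2 + α) • v ∈ ball x r := by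
    rw [mem_ball, dist_eq_norm, add_sub_cancel_left, norm_smul, Real.norm_eq_abs,
      abs_of_nonneg (by linarith : (0:ℝ) ≤ s / 2 + α)]
    have : (s / 2 + α) * ‖v‖ ≤ s * ‖v‖ := mul_le_mul_of_nonneg_right (by linarith) (norm_nonneg _)
    nlinarith [norm_nonneg v, norm_nonneg w]
  have hb2 : x + (s / 2 + α) • v + β • w ∈ ball x r := by
    rw [mem_ball, dist_eq_norm, add_assoc, add_sub_cancel_left]
    have h1 : ‖(s / 2 + α) • v + β • w‖ ≤ (s / 2 + α) * ‖v‖ + |β| * ‖w‖ := by
      refine (norm_add_le _ _).trans (le_of_eq ?_)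
      rw [norm_smul, norm_smul, Real.norm_eq_abs, Real.norm_eq_abs,
        abs_of_nonneg (by linarith : (0:ℝ) ≤ s / 2 + α)]
    have h2 : (s / 2 + α) * ‖v‖ ≤ s * ‖v‖ := mul_le_mul_of_nonneg_right (by linarith) (norm_nonneg _)
    have h3 : |β| * ‖w‖ ≤ s * ‖w‖ := mul_le_mul_of_nonneg_right (by linarith) (norm_nonneg _)
    nlinarith
  exact ⟨⟨(H' i _ hb1 β hb2).1 hm.1.1, (H' j _ hb1 β hb2).1 hm.1.2⟩, (H' k _ hb1 β hb2).1 hm.2⟩

end Tiling

theorem specEdge : SpecEdge := by
  intro Ω o T hΩ i j k hij hik hjk x hx hK0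
  have hxΩ : x ∈ Ω := T.subset i hx.1.1
  obtain ⟨w, hinv, hw⟩ : ∃ w, T.Inv x w ∧ w ≠ 0 := by
    by_contra hcon
    push Not at hcon
    exact hK0 ⟨hxΩ, hcon⟩
  obtain ⟨r, hr, hb, H, hH, hmem, hact⟩ := T.exists_active hΩ hxΩ
  obtain ⟨a, b, g, g', ha, hb', hg, hg', hgx, hgx', hcr⟩ := T.exists_pair hr hH hact hij hik hjk
    hx.1.1 hx.1.2 hx.2
  obtain ⟨p, d, hd, hline, -, -⟩ := exists_line o hcr
  have honline : ∀ y ∈ T.C i ∩ T.C j ∩ T.C k, ∃ t : ℝ, ∀ l, y l = o l + p l + t * d l := by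
    intro y hy
    exact hline y (T.triple_subset hw hinv hH hij hik hjk hx ha hg hgx hy)
      (T.triple_subset hw hinv hH hij hik hjk hx hb' hg' hgx' hy)
  -- the line
  let L : ℝ → V := fun t l => o l + p l + t * d l
  have hLc : Continuous L := by
    show Continuous fun t : ℝ => (fun l => o l + p l + t * d l : V)
    fun_prop
  have hLadd : ∀ s t θ : ℝ, L s + θ • (L t - L s) = L (s + θ * (t - s)) := by
    intro s t θ
    funext l
    show o l + p l + s * d l + θ * (o l + p l + t * d l - (o l + p l + s * d l)) = _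
    show _ = o l + p l + (s + θ * (t - s)) * d l
    ring
  obtain ⟨l0, hl0⟩ : ∃ l, d l ≠ 0 := by
    by_contra hcon
    push Not at hcon
    exact hd (funext hcon)
  have hl0' : (d l0 : ℝ) ≠ 0 := by exact_mod_cast hl0
  let τ : V → ℝ := fun y => (y l0 - (o l0 + p l0)) / d l0
  have hτc : Continuous τ := by
    show Continuous fun y : V => (y l0 - (o l0 + p l0)) / d l0
    fun_prop
  have hτL : ∀ t, τ (L t) = t := by
    intro t
    show (o l0 + p l0 + t * d l0 - (o l0 + p l0)) / d l0 = t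
    field_simp
    ring
  have hLτ : ∀ y ∈ T.C i ∩ T.C j ∩ T.C k, L (τ y) = y := by
    intro y hy
    obtain ⟨t, ht⟩ := honline y hy
    have : y = L t := funext ht
    rw [this, hτL]
  have hcomp : IsCompact (T.C i ∩ T.C j ∩ T.C k) :=
    ((T.compact i).inter_right (T.isClosed j)).inter_right (T.isClosed k)
  have hconv : Convex ℝ (T.C i ∩ T.C j ∩ T.C k) :=
    ((T.convex i).inter (T.convex j)).inter (T.convex k)
  obtain ⟨y1, hy1, hmin⟩ := hcomp.exists_isMinOn ⟨x, hx⟩ hτc.continuousOn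
  obtain ⟨y2, hy2, hmax⟩ := hcomp.exists_isMaxOn ⟨x, hx⟩ hτc.continuousOn
  have hsub : T.C i ∩ T.C j ∩ T.C k ⊆ Ω := fun y hy => T.subset i hy.1.1
  have near : ∀ y ∈ T.C i ∩ T.C j ∩ T.C k, ∃ ε > 0, ∀ t, |t - τ y| < ε → L t ∈ Ω := by
    intro y hy
    have h1 : ∀ᶠ t in 𝓝 (τ y), L t ∈ Ω := by
      refine hLc.continuousAt.preimage_mem_nhds ?_
      rw [hLτ y hy]
      exact hΩ.mem_nhds (hsub hy)
    obtain ⟨ε, hε, hb⟩ := Metric.mem_nhds_iff.1 h1
    exact ⟨ε, hε, fun t ht => hb (by rw [mem_ball, Real.dist_eq]; exact ht)⟩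
  obtain ⟨ε1, hε1, k1⟩ := near y1 hy1
  obtain ⟨ε2, hε2, k2⟩ := near y2 hy2
  obtain ⟨q1, hq1, hq1'⟩ := exists_rat_btwn (show τ y1 - ε1 < τ y1 by linarith)
  obtain ⟨q2, hq2, hq2'⟩ := exists_rat_btwn (show τ y2 < τ y2 + ε2 by linarith)
  have h12 : τ y1 ≤ τ y2 := hmin hy2
  have hlt : (q1 : ℝ) < q2 := by linarith
  have hxl : τ y1 ≤ τ x := hmin hx
  have hxu : τ x ≤ τ y2 := hmax hx
  have hseg : ∀ t, (q1:ℝ) ≤ t → t ≤ q2 → L t ∈ segment ℝ (L q1) (L q2) := by
    intro t h1 h2
    have hd' : (q2:ℝ) - q1 ≠ 0 := by linarith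
    refine ⟨1 - (t - q1) / (q2 - q1), (t - q1) / (q2 - q1), ?_, ?_, by ring, ?_⟩
    · rw [sub_nonneg, div_le_one (by linarith)]; linarith
    · exact div_nonneg (by linarith) (by linarith)
    · have h3 := hLadd q1 q2 ((t - q1) / (q2 - q1))
      rw [div_mul_cancel₀ _ hd', add_sub_cancel] at h3
      rw [← h3]
      module
  have hLne : L q1 ≠ L q2 := fun h => hlt.ne (by rw [← hτL q1, h, hτL])
  refine ⟨L q1, L q2, fun l => ⟨p l + q1 * d l, ?_⟩, fun l => ⟨p l + q2 * d l, ?_⟩, hLne, ?_, ?_,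
    ?_, ?_⟩
  · show o l + p l + q1 * d l = _
    push_cast; ring
  · show o l + p l + q2 * d l = _
    push_cast; ring
  · rintro _ ⟨s, t, hs, ht, hst, rfl⟩
    have e : s • L q1 + t • L q2 = L (q1 + t * (q2 - q1)) := by
      rw [← hLadd]
      have : s = 1 - t := by linarith
      rw [this]; module
    rw [e]
    set u : ℝ := q1 + t * (q2 - q1) with hu
    have hu1 : (q1:ℝ) ≤ u := by
      have : 0 ≤ t * ((q2:ℝ) - q1) := mul_nonneg ht (by linarith)
      linarith
    have hu2 : u ≤ q2 := by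
      have : t * ((q2:ℝ) - q1) ≤ 1 * ((q2:ℝ) - q1) :=
        mul_le_mul_of_nonneg_right (by linarith) (by linarith)
      linarith
    rcases lt_or_ge u (τ y1) with h3 | h3
    · refine k1 u ?_
      rw [abs_lt]; constructor <;> linarith
    · rcases le_or_gt u (τ y2) with h4 | h4
      · -- between
        apply hsub
        rcases h12.eq_or_lt with h5 | h5
        · have : u = τ y1 := by linarith
          rw [this, hLτ y1 hy1]; exact hy1
        · have h6 := hconv hy1 hy2 (show (0:ℝ) ≤ 1 - (u - τ y1) / (τ y2 - τ y1) by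
            rw [sub_nonneg, div_le_one (by linarith)]; linarith)
            (show (0:ℝ) ≤ (u - τ y1) / (τ y2 - τ y1) from div_nonneg (by linarith) (by linarith))
            (by ring)
          have h7 := hLadd (τ y1) (τ y2) ((u - τ y1) / (τ y2 - τ y1))
          rw [div_mul_cancel₀ _ (by linarith : τ y2 - τ y1 ≠ 0), add_sub_cancel, hLτ y1 hy1,
            hLτ y2 hy2] at h7
          rw [← h7]
          convert h6 using 1
          module
      · refine k2 u ?_
        rw [abs_lt]; constructor <;> linarith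
  · intro y hy
    rw [← hLτ y hy]
    have h3 : τ y1 ≤ τ y := hmin hy
    have h4 : τ y ≤ τ y2 := hmax hy
    exact hseg _ (by linarith) (by linarith)
  · have hxL := hLτ x hx
    have hd' : (0:ℝ) < q2 - q1 := by linarith
    refine ⟨1 - (τ x - q1) / (q2 - q1), (τ x - q1) / (q2 - q1), ?_, ?_, by ring, ?_⟩
    · rw [sub_pos, div_lt_one hd']; linarith
    · exact div_pos (by linarith) hd'
    · have h3 := hLadd q1 q2 ((τ x - q1) / (q2 - q1))
      rw [div_mul_cancel₀ _ hd'.ne', add_sub_cancel, hxL] at h3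
      conv_rhs => rw [← h3]
      module
  · -- direction of invariance
    obtain ⟨t0, ht0⟩ := honline x hx
    have hgw : rf o g (x + w) = 0 := by
      have := rf_add_smul o g x w 1
      rw [one_smul] at this
      rw [this, hgx, Tiling.rl_eq_zero_of_inv hinv ha (hH a) hg hgx]; ring
    have hgw' : rf o g' (x + w) = 0 := by
      have := rf_add_smul o g' x w 1
      rw [one_smul] at this
      rw [this, hgx', Tiling.rl_eq_zero_of_inv hinv hb' (hH b) hg' hgx']; ring
    obtain ⟨t1, ht1⟩ := hline (x + w) hgw hgw'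
    have hwd : ∀ l, w l = (t1 - t0) * d l := by
      intro l
      have e1 := ht0 l
      have e2 := ht1 l
      rw [Pi.add_apply] at e2
      linarith
    have ht : t1 - t0 ≠ 0 := by
      intro h
      apply hw
      funext l
      rw [hwd l, h, zero_mul]; rfl
    have e : L q2 - L q1 = (((q2:ℝ) - q1) / (t1 - t0)) • w := by
      funext l
      show o l + p l + q2 * d l - (o l + p l + q1 * d l) = (((q2:ℝ) - q1) / (t1 - t0)) * w l
      rw [hwd l]
      field_simp
      ring
    rw [e]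
    exact hinv.smul _

end P073.KW
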