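import Vale.Agent.P073.KW720.Faces

/-!
# P073, block KW: the Whitney tiling as a cell complex (part 4: the faces are rectangles)
-/

open Set Metric Topology Filter

namespace P073.KW

open Vale.Agent.P073.St (V)
open P073.Net

variable {Ω : Set V} {ρ : V → ℝ} {o : V}

/-- the rectangle with direction `l`, height `c`, in the other directions like the tile `S` -/
def rect (S : Tl ρ o) (l : Fin 3) (c : ℝ) : Set V :=
  {y | y l = c ∧ ∀ k, k ≠ l → lo S k ≤ y k ∧ y k ≤ hi S k}

/-- the relative boundary of the rectangle -/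
def drect (S : Tl ρ o) (l : Fin 3) (c : ℝ) : Set V :=
  {y | y ∈ rect S l c ∧ ∃ k, k ≠ l ∧ (y k = lo S k ∨ y k = hi S k)}

/-- nested intervals of two tiles with overlapping open intervals -/
theorem nested_of_fr {T T' : Tl ρ o} {x : V} {k : Fin 3} (hm : T.1.1 ≤ T'.1.1)
    (h : lo T k < x k ∧ x k < hi T k) (h' : lo T' k < x k ∧ x k < hi T' k) :
    lo T k ≤ lo T' k ∧ hi T' k ≤ hi T k := by
  obtain ⟨d, hd⟩ := Nat.exists_eq_add_of_le hm
  rw [coord_lo, coord_hi] at h h'
  rw [coord_lo, coord_hi, coord_lo, coord_hi]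
  rw [hd] at h' ⊢
  obtain ⟨i1, i2⟩ := nested_int h.1 h.2 h'.1 h'.2
  exact interval_of_int (m := T.1.1) (c := o k) i1 i2

/-- **faces are rectangles**: two different tiles with a common point which is not in a third
tile -/
theorem exists_rect_aux (hΩ : IsOpen Ω) (hρ : SizeFn Ω ρ) {T T' : Tl ρ o}
    (hm : T.1.1 ≤ T'.1.1) {x : V} {l : Fin 3} {c : ℝ}
    (hl : (hi T l = c ∧ lo T' l = c) ∨ (lo T l = c ∧ hi T' l = c))
    (hfr : ∀ k, k ≠ l → (lo T k < x k ∧ x k < hi T k) ∧ (lo T' k < x k ∧ x k < hi T' k)) :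
    cell T ∩ cell T' = rect T' l c ∧ cell T ∩ cell T' ∩ K1 ρ o = drect T' l c := by
  have hnest : ∀ k, k ≠ l → lo T k ≤ lo T' k ∧ hi T' k ≤ hi T k := fun k hk =>
    nested_of_fr hm (hfr k hk).1 (hfr k hk).2
  have hne : T ≠ T' := by
    rintro rfl
    rcases hl with ⟨h1, h2⟩ | ⟨h1, h2⟩
    · have := lo_lt_hi T l; linarith
    · have := lo_lt_hi T l; linarith
  have e : cell T ∩ cell T' = rect T' l c := by
    ext y
    constructor
    · rintro ⟨h1, h2⟩
      refine ⟨?_, fun k _ => mem_cell.1 h2 k⟩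
      have a := mem_cell.1 h1 l
      have b := mem_cell.1 h2 l
      rcases hl with ⟨h3, h4⟩ | ⟨h3, h4⟩ <;> linarith [a.1, a.2, b.1, b.2]
    · rintro ⟨h1, h2⟩
      constructor
      · rw [mem_cell]
        intro k
        by_cases hk : k = l
        · subst hk
          have := lo_lt_hi T k
          rcases hl with ⟨h3, h4⟩ | ⟨h3, h4⟩ <;> constructor <;> linarith
        · have := h2 k hk
          have := hnest k hk
          constructor <;> linarith
      · rw [mem_cell]
        intro k
        by_cases hk : k = l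
        · subst hk
          have := lo_lt_hi T' k
          rcases hl with ⟨h3, h4⟩ | ⟨h3, h4⟩ <;> constructor <;> linarith
        · exact h2 k hk
  refine ⟨e, ?_⟩
  ext y
  constructor
  · rintro ⟨hy, hyK⟩
    refine ⟨e ▸ hy, ?_⟩
    by_contra hcon
    push Not at hcon
    -- then `y` is an interior point of the rectangle
    have hyr : y ∈ rect T' l c := e ▸ hy
    have hfT' : ∀ k, k ≠ l → Fr T' y k := fun k hk =>
      ⟨fun h => (hcon k hk).1 h.symm, fun h => (hcon k hk).2 h.symm⟩
    have hfT : ∀ k, k ≠ l → Fr T y k := by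
      intro k hk
      have h1 := (hfT' k hk).lt hy.2
      have h2 := hnest k hk
      exact ⟨(by linarith [h1.1] : lo T k < y k).ne, (by linarith [h1.2] : y k < hi T k).ne'⟩
    obtain ⟨r, hr, -⟩ := exists_rad (o := o) hΩ hρ (cell_subset hρ T hy.1)
    obtain ⟨σ0, e0⟩ := hr.exists_eq_ct hy.1
    obtain ⟨σ1, e1⟩ := hr.exists_eq_ct hy.2
    have hall : ∀ σ, hr.ct σ = T ∨ hr.ct σ = T' := by
      intro σ
      by_cases hs : σ l = σ0 l
      · left
        exact (hr.eq_ct_congr hy.1 e0 fun k hk => by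
          by_cases hkl : k = l
          · subst hkl; exact hs
          · exact absurd (hfT k hkl) hk).symm
      · right
        have h10 : σ1 l ≠ σ0 l := by
          intro h10
          apply hne
          rw [e1]
          exact hr.eq_ct_congr hy.1 e0 fun k hk => by
            by_cases hkl : k = l
            · subst hkl; exact h10
            · exact absurd (hfT k hkl) hk
        exact (hr.eq_ct_congr hy.2 e1 fun k hk => by
          by_cases hkl : k = l
          · subst hkl
            revert hs h10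
            cases σ k <;> cases σ1 k <;> cases σ0 k <;> simp
          · exact absurd (hfT' k hkl) hk).symm
    obtain ⟨T₁, T₂, T₃, h12, h13, h23, m1, m2, m3⟩ := hyK
    have two : ∀ S : Tl ρ o, y ∈ cell S → S = T ∨ S = T' := by
      intro S hS
      obtain ⟨σ, e⟩ := hr.exists_eq_ct hS
      rw [e]; exact hall σ
    rcases two T₁ m1 with h1 | h1 <;> rcases two T₂ m2 with h2 | h2 <;>
      rcases two T₃ m3 with h3 | h3 <;> subst h1 <;> subst h2 <;> simp_all
  · rintro ⟨hy, k, hk, hyk⟩
    have hyC : y ∈ cell T ∩ cell T' := by rw [e]; exact hy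
    refine ⟨hyC, (mem_K1_iff hΩ hρ).2 ⟨T', k, l, hyC.2, hk, hyk, ?_⟩⟩
    rcases hl with ⟨h3, h4⟩ | ⟨h3, h4⟩
    · left; rw [hy.1, h4]
    · right; rw [hy.1, h4]

/-- **faces are rectangles**: two different tiles with a common point which is not in a third
tile -/
theorem exists_rect (hΩ : IsOpen Ω) (hρ : SizeFn Ω ρ) {T T' : Tl ρ o} (hne : T ≠ T') {x : V}
    (hT : x ∈ cell T) (hT' : x ∈ cell T') (hK : x ∉ K1 ρ o) :
    ∃ (S : Tl ρ o) (l : Fin 3) (c : ℝ), (S = T ∨ S = T') ∧ (c = lo S l ∨ c = hi S l) ∧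
      cell T ∩ cell T' = rect S l c ∧ cell T ∩ cell T' ∩ K1 ρ o = drect S l c := by
  obtain ⟨r, h, -⟩ := exists_rad (o := o) hΩ hρ (cell_subset hρ T hT)
  obtain ⟨l, hl, hfr⟩ := h.two_tiles hne hT hT' hK
  rcases le_total T.1.1 T'.1.1 with hm | hm
  · obtain ⟨e1, e2⟩ := exists_rect_aux hΩ hρ hm (x := x) (l := l) (c := x l) hl
      fun k hk => ⟨(hfr k hk).1.lt hT, (hfr k hk).2.lt hT'⟩
    refine ⟨T', l, x l, Or.inr rfl, ?_, e1, e2⟩
    rcases hl with ⟨_, h2⟩ | ⟨_, h2⟩
    · exact Or.inl h2.symm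
    · exact Or.inr h2.symm
  · obtain ⟨e1, e2⟩ := exists_rect_aux hΩ hρ hm (x := x) (l := l) (c := x l)
      (hl.symm.imp (fun h => ⟨h.2, h.1⟩) fun h => ⟨h.2, h.1⟩)
      fun k hk => ⟨(hfr k hk).2.lt hT', (hfr k hk).1.lt hT⟩
    rw [inter_comm (cell T) (cell T')]
    refine ⟨T, l, x l, Or.inl rfl, ?_, e1, e2⟩
    rcases hl with ⟨h2, _⟩ | ⟨h2, _⟩
    · exact Or.inr h2.symm
    · exact Or.inl h2.symm

/-! ### Edge points -/

/-- the octant given by the signs `s`, `t` in the directions `a`, `b` -/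
def quad (a b : Fin 3) (s t : Bool) : Fin 3 → Bool := fun j => if j = a then s else if j = b then t
  else true

@[simp] theorem quad_a {a b : Fin 3} {s t : Bool} : quad a b s t a = s := by simp [quad]

theorem quad_b {a b : Fin 3} (h : a ≠ b) {s t : Bool} : quad a b s t b = t := by
  simp [quad, h.symm]

namespace Rad

variable {x : V} {r : ℝ}

/-- the tile of the quadrant with signs `s`, `t` in the directions `a`, `b` at an edge point -/
noncomputable def cq (h : Rad ρ o x r) (a b : Fin 3) (s t : Bool) : Tl ρ o := h.ct (quad a b s t)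

theorem mem_cq (h : Rad ρ o x r) (a b : Fin 3) (s t : Bool) : x ∈ cell (h.cq a b s t) := h.mem_ct _

variable {a b k : Fin 3}

/-- the octants only depend on the signs in the directions `a`, `b` -/
theorem ct_eq_cq (h : Rad ρ o x r) (hk : ∀ j, j = k ∨ j = a ∨ j = b)
    (hfree : ∀ T : Tl ρ o, x ∈ cell T → Fr T x k) (hab : a ≠ b) (σ : Fin 3 → Bool) :
    h.ct σ = h.cq a b (σ a) (σ b) := by
  refine h.eq_ct_congr (h.mem_ct _) rfl fun j hj => ?_
  rcases hk j with rfl | rfl | rfl
  · exact absurd (hfree _ (h.mem_ct _)) hj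
  · simp
  · rw [quad_b hab]

/-- every tile at `x` is the tile of a quadrant -/
theorem exists_eq_cq (h : Rad ρ o x r) (hk : ∀ j, j = k ∨ j = a ∨ j = b)
    (hfree : ∀ T : Tl ρ o, x ∈ cell T → Fr T x k) (hab : a ≠ b) {T : Tl ρ o} (hT : x ∈ cell T) :
    ∃ s t, T = h.cq a b s t := by
  obtain ⟨σ, e⟩ := h.exists_eq_ct hT
  exact ⟨σ a, σ b, e.trans (h.ct_eq_cq hk hfree hab σ)⟩

/-- points of the closed quadrant are in the tile -/
theorem quad_subset_cell (h : Rad ρ o x r) (hk : ∀ j, j = k ∨ j = a ∨ j = b)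
    (hfree : ∀ T : Tl ρ o, x ∈ cell T → Fr T x k) (hab : a ≠ b) {s t : Bool} {y : V}
    (hy : y ∈ ball x r) (ha : 0 ≤ sg s * (y a - x a)) (hb : 0 ≤ sg t * (y b - x b)) :
    y ∈ cell (h.cq a b s t) := by
  have hT := h.mem_cq a b s t
  rw [h.mem_cell_iff hT hy]
  have e := (h.eq_ct_iff hT).1 rfl
  intro j
  have e1 := e j
  rcases hk j with rfl | rfl | rfl
  · have hf := hfree _ hT
    exact ⟨fun h1 => absurd h1 hf.1, fun h1 => absurd h1 hf.2⟩
  · rw [quad_a] at e1
    constructor
    · intro h1; rw [e1.1 h1, sg_true] at ha; linarith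
    · intro h1; rw [e1.2 h1, sg_false] at ha; linarith
  · rw [quad_b hab] at e1
    constructor
    · intro h1; rw [e1.1 h1, sg_true] at hb; linarith
    · intro h1; rw [e1.2 h1, sg_false] at hb; linarith

/-- points of the open quadrant are in the open tile -/
theorem quad_subset_ocell (h : Rad ρ o x r) (hk : ∀ j, j = k ∨ j = a ∨ j = b)
    (hfree : ∀ T : Tl ρ o, x ∈ cell T → Fr T x k) (hab : a ≠ b) {s t : Bool} {y : V}
    (hy : y ∈ ball x r) (ha : 0 < sg s * (y a - x a)) (hb : 0 < sg t * (y b - x b)) :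
    y ∈ ocell (h.cq a b s t) := by
  have hT := h.mem_cq a b s t
  rw [h.mem_ocell_iff hT hy]
  have e := (h.eq_ct_iff hT).1 rfl
  intro j
  have e1 := e j
  rcases hk j with rfl | rfl | rfl
  · have hf := hfree _ hT
    exact ⟨fun h1 => absurd h1 hf.1, fun h1 => absurd h1 hf.2⟩
  · rw [quad_a] at e1
    constructor
    · intro h1; rw [e1.1 h1, sg_true] at ha; linarith
    · intro h1; rw [e1.2 h1, sg_false] at ha; linarith
  · rw [quad_b hab] at e1
    constructor
    · intro h1; rw [e1.1 h1, sg_true] at hb; linarith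
    · intro h1; rw [e1.2 h1, sg_false] at hb; linarith

/-- opposite quadrants belong to different tiles -/
theorem cq_ne_diag (h : Rad ρ o x r) (hk : ∀ j, j = k ∨ j = a ∨ j = b)
    (hfree : ∀ T : Tl ρ o, x ∈ cell T → Fr T x k) (hab : a ≠ b) (hK : x ∈ K1 ρ o) (s t : Bool) :
    h.cq a b s t ≠ h.cq a b (!s) (!t) := by
  intro e
  have hfa : Fr (h.cq a b s t) x a := h.fr_of_ne (h.mem_cq _ _ _ _) rfl e (by simp)
  have hfb : Fr (h.cq a b s t) x b := h.fr_of_ne (h.mem_cq _ _ _ _) rfl e (by
    rw [quad_b hab, quad_b hab]; simp)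
  have hall : ∀ T : Tl ρ o, x ∈ cell T → T = h.cq a b s t := by
    intro T hT
    obtain ⟨σ, e1⟩ := h.exists_eq_ct hT
    rw [e1]
    symm
    refine h.eq_ct_congr (h.mem_cq _ _ _ _) rfl fun j hj => ?_
    rcases hk j with rfl | rfl | rfl
    · exact absurd (hfree _ (h.mem_cq _ _ _ _)) hj
    · exact absurd hfa hj
    · exact absurd hfb hj
  obtain ⟨T₁, T₂, T₃, h12, -, -, m1, m2, -⟩ := hK
  exact h12 ((hall _ m1).trans (hall _ m2).symm)

theorem cq_ne_diag' (h : Rad ρ o x r) (hk : ∀ j, j = k ∨ j = a ∨ j = b)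
    (hfree : ∀ T : Tl ρ o, x ∈ cell T → Fr T x k) (hab : a ≠ b) (hK : x ∈ K1 ρ o) (s t : Bool) :
    h.cq a b s (!t) ≠ h.cq a b (!s) t := by
  have := h.cq_ne_diag hk hfree hab hK s (!t)
  simpa using this

/-- at most one pair of adjacent quadrants belongs to the same tile: if the quadrants
`(s,t)`, `(s,!t)` are in the same tile then all other pairs of quadrants are in different tiles -/
theorem cq_inj_of_eq (h : Rad ρ o x r) (hk : ∀ j, j = k ∨ j = a ∨ j = b)
    (hfree : ∀ T : Tl ρ o, x ∈ cell T → Fr T x k) (hab : a ≠ b) (hK : x ∈ K1 ρ o) {s : Bool}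
    (e : h.cq a b s true = h.cq a b s false) :
    h.cq a b (!s) true ≠ h.cq a b (!s) false ∧ (∀ t, h.cq a b s true ≠ h.cq a b (!s) t) := by
  have h2 : ∀ t, h.cq a b s true ≠ h.cq a b (!s) t := by
    intro t
    cases t
    · simpa using h.cq_ne_diag hk hfree hab hK s true
    · rw [e]; simpa using h.cq_ne_diag hk hfree hab hK s false
  refine ⟨fun e' => ?_, h2⟩
  -- then only two tiles contain `x`
  have hall : ∀ T : Tl ρ o, x ∈ cell T → T = h.cq a b s true ∨ T = h.cq a b (!s) true := by
    intro T hT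
    obtain ⟨s', t', e1⟩ := h.exists_eq_cq hk hfree hab hT
    by_cases hs : s' = s
    · subst hs
      left
      cases t'
      · rw [e1, ← e]
      · exact e1
    · have : s' = !s := by revert hs; cases s <;> cases s' <;> simp
      subst this
      right
      cases t'
      · rw [e1, ← e']
      · exact e1
  obtain ⟨T₁, T₂, T₃, h12, h13, h23, m1, m2, m3⟩ := hK
  rcases hall T₁ m1 with h1 | h1 <;> rcases hall T₂ m2 with h2' | h2' <;>
    rcases hall T₃ m3 with h3 | h3 <;> subst h1 <;> subst h2' <;> simp_all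

theorem quad_swap (hab : a ≠ b) (s t : Bool) : quad a b s t = quad b a t s := by
  funext j
  unfold quad
  by_cases h1 : j = a
  · subst h1; simp [hab]
  · simp [h1]

theorem cq_swap (h : Rad ρ o x r) (hab : a ≠ b) (s t : Bool) :
    h.cq a b s t = h.cq b a t s := by
  unfold cq
  rw [quad_swap hab]

/-- adjacent quadrants with different tiles: there is a point in the common face near `x`, not in
the one-skeleton -/
theorem exists_face_point (h : Rad ρ o x r) (hk : ∀ j, j = k ∨ j = a ∨ j = b)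
    (hfree : ∀ T : Tl ρ o, x ∈ cell T → Fr T x k) (hab : a ≠ b) (hka : k ≠ a)
    (s t : Bool) {y : V}
    (hy : y ∈ ball x r) (hya : 0 < sg s * (y a - x a)) (hyb : y b = x b) :
    y ∈ cell (h.cq a b s t) ∧ y ∉ K1 ρ o := by
  refine ⟨h.quad_subset_cell hk hfree hab hy hya.le (by rw [hyb]; simp), ?_⟩
  have two : ∀ T : Tl ρ o, y ∈ cell T → T = h.cq a b s true ∨ T = h.cq a b s false := by
    intro T hT
    have hxT := h.mem T ⟨y, hT, hy⟩
    obtain ⟨s', t', e⟩ := h.exists_eq_cq hk hfree hab hxT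
    by_cases hf : Fr T x a
    · have e2 : T = h.cq a b s t' := by
        refine h.eq_ct_congr hxT e fun j hj => ?_
        rcases hk j with rfl | rfl | rfl
        · exact absurd (hfree _ hxT) hj
        · exact absurd hf hj
        · rw [quad_b hab, quad_b hab]
      cases t'
      · exact Or.inr e2
      · exact Or.inl e2
    · have e1 := (h.eq_ct_iff hxT).1 e a
      rw [quad_a] at e1
      have e3 := (h.mem_cell_iff hxT hy).1 hT a
      have hss : s' = s := by
        unfold Fr at hf
        by_cases h1 : lo T a = x a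
        · have h2 := e1.1 h1
          have h3 := e3.1 h1
          rw [h2]
          revert hya
          cases s
          · simp only [sg_false]; intro hya; linarith
          · simp
        · have h1' : hi T a = x a := by
            by_contra h4
            exact hf ⟨h1, h4⟩
          have h2 := e1.2 h1'
          have h3 := e3.2 h1'
          rw [h2]
          revert hya
          cases s
          · simp
          · simp only [sg_true]; intro hya; linarith
      subst hss
      cases t'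
      · exact Or.inr e
      · exact Or.inl e
  rintro ⟨T₁, T₂, T₃, h12, h13, h23, m1, m2, m3⟩
  rcases two T₁ m1 with h1 | h1 <;> rcases two T₂ m2 with h2 | h2 <;>
    rcases two T₃ m3 with h3 | h3 <;> subst h1 <;> subst h2 <;> simp_all

end Rad

/-- the point has exactly one non-dyadic coordinate `k`: then all tiles are free in this
direction -/
theorem fr_of_nondyadic {x : V} {k : Fin 3} (hx : ∀ (m : ℕ) (z : ℤ), x k ≠ o k + z / 2 ^ m)
    (T : Tl ρ o) : Fr T x k := by
  constructor
  · intro h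
    exact hx T.1.1 (T.1.2 k) (h ▸ coord_lo T k)
  · intro h
    apply hx T.1.1 (T.1.2 k + 1)
    rw [← h, coord_hi]
    push_cast
    ring

/-- the dyadic points -/
def DY (o : V) : Set V := {x | ∀ k, ∃ (m : ℕ) (z : ℤ), x k = o k + z / 2 ^ m}

theorem countable_DY (o : V) : (DY o).Countable := by
  have h1 : ∀ k, {t : ℝ | ∃ (m : ℕ) (z : ℤ), t = o k + z / 2 ^ m}.Countable := by
    intro k
    have : {t : ℝ | ∃ (m : ℕ) (z : ℤ), t = o k + z / 2 ^ m} =
        range fun p : ℕ × ℤ => o k + p.2 / 2 ^ p.1 := by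
      ext t
      constructor
      · rintro ⟨m, z, h⟩; exact ⟨(m, z), h.symm⟩
      · rintro ⟨⟨m, z⟩, h⟩; exact ⟨m, z, h.symm⟩
    rw [this]
    exact countable_range _
  exact Set.countable_pi h1

/-- three different directions -/
theorem exists_dirs (k : Fin 3) : ∃ a b : Fin 3, a ≠ b ∧ k ≠ a ∧ k ≠ b ∧
    ∀ j, j = k ∨ j = a ∨ j = b := by
  revert k; decide

/-- a non-dyadic point has a direction in which all tiles are free -/
theorem exists_free {x : V} (hx : x ∉ DY o) : ∃ k, ∀ T : Tl ρ o, Fr T x k := by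
  unfold DY at hx
  simp only [mem_ofPred_eq, not_forall, not_exists] at hx
  obtain ⟨k, hk⟩ := hx
  exact ⟨k, fun T => fr_of_nondyadic hk T⟩

end P073.KW
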