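import Vale.Agent.P073.KW720.Edge
import Vale.Agent.P073.KW720.Rect

/-!
# P073, block KW: existence of rational convex tilings containing a rational graph
-/

open Set Metric Topology Filter

namespace P073.KW

open Vale.Agent.P073.St (V)
open P073.Net P073.PR720

variable {Ω : Set V} {o : V}

/-- two independent rational planes through a rational segment -/
theorem exists_planes {a b : V} (ha : Rat o a) (hb : Rat o b) (hab : a ≠ b) :
    ∃ g g' : (Fin 3 → ℚ) × ℚ, cr g g' ≠ 0 ∧ ∀ x ∈ segment ℝ a b, rf o g x = 0 ∧ rf o g' x = 0 := by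
  choose p hp using ha
  choose q hq using hb
  obtain ⟨k, hk⟩ : ∃ k, q k - p k ≠ 0 := by
    by_contra hcon
    push Not at hcon
    apply hab
    funext k
    have : q k = p k := by have := hcon k; linarith
    rw [hp k, hq k, this]
  -- planes with normals `n`, `n'` orthogonal to `q - p`
  have main : ∀ n n' : Fin 3 → ℚ, (∑ k, n k * (q k - p k) = 0) → (∑ k, n' k * (q k - p k) = 0) →
      cr (n, 0) (n', 0) ≠ 0 →
      ∃ g g' : (Fin 3 → ℚ) × ℚ, cr g g' ≠ 0 ∧
        ∀ x ∈ segment ℝ a b, rf o g x = 0 ∧ rf o g' x = 0 := by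
    intro n n' hn hn' hcr
    have key : ∀ m : Fin 3 → ℚ, (∑ k, m k * (q k - p k) = 0) → ∀ x ∈ segment ℝ a b,
        rf o (m, ∑ k, m k * p k) x = 0 := by
      intro m hm x hx
      have e1 : rf o (m, ∑ k, m k * p k) a = 0 := by
        unfold rf
        rw [sub_eq_zero]
        push_cast
        refine Finset.sum_congr rfl fun k _ => ?_
        rw [hp k]; ring
      have e2 : rf o (m, ∑ k, m k * p k) b = 0 := by
        unfold rf
        have h1 : ((∑ k, m k * (q k - p k) : ℚ) : ℝ) = 0 := by rw [hm]; simp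
        push_cast at h1 ⊢
        rw [← Finset.sum_sub_distrib]
        rw [← h1]
        refine Finset.sum_congr rfl fun k _ => ?_
        rw [hq k]; ring
      rw [segment_eq_image'] at hx
      obtain ⟨t, -, rfl⟩ := hx
      show rf o _ (a + t • (b - a)) = 0
      rw [rf_line, e1, e2]; ring
    exact ⟨(n, ∑ k, n k * p k), (n', ∑ k, n' k * p k), hcr,
      fun x hx => ⟨key n hn x hx, key n' hn' x hx⟩⟩
  set d : Fin 3 → ℚ := fun k => q k - p k with hd
  have hdk : d k ≠ 0 := hk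
  have hsum : ∀ n : Fin 3 → ℚ, (∑ k, n k * (q k - p k)) = n 0 * d 0 + n 1 * d 1 + n 2 * d 2 := by
    intro n; rw [Fin.sum_univ_three]
  fin_cases k
  · refine main ![-d 1, d 0, 0] ![-d 2, 0, d 0] ?_ ?_ ?_
    · rw [hsum]; simp; ring
    · rw [hsum]; simp; ring
    · intro h
      have := congrFun h 0
      simp [cr] at this
      exact hdk this
  · refine main ![d 1, -d 0, 0] ![0, -d 2, d 1] ?_ ?_ ?_
    · rw [hsum]; simp; ring
    · rw [hsum]; simp; ring
    · intro h
      have := congrFun h 1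
      simp [cr] at this
      exact hdk this
  · refine main ![d 2, 0, -d 0] ![0, d 2, -d 1] ?_ ?_ ?_
    · rw [hsum]; simp; ring
    · rw [hsum]; simp; ring
    · intro h
      have := congrFun h 2
      simp [cr] at this
      exact hdk this

theorem rl_add (g : (Fin 3 → ℚ) × ℚ) (v w : V) : rl g (v + w) = rl g v + rl g w := by
  unfold rl
  rw [← Finset.sum_add_distrib]
  refine Finset.sum_congr rfl fun k _ => ?_
  rw [Pi.add_apply]; ring

/-- independent normals: dual vectors -/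
theorem exists_dual {g g' : (Fin 3 → ℚ) × ℚ} (h : cr g g' ≠ 0) : ∃ u u' : V,
    0 < rl g u ∧ rl g' u = 0 ∧ rl g u' = 0 ∧ 0 < rl g' u' := by
  set d := cr g g' with hd
  have s0 : (d 0 : ℝ) = g.1 1 * g'.1 2 - g.1 2 * g'.1 1 := by rw [hd]; simp [cr]
  have s1 : (d 1 : ℝ) = g.1 2 * g'.1 0 - g.1 0 * g'.1 2 := by rw [hd]; simp [cr]
  have s2 : (d 2 : ℝ) = g.1 0 * g'.1 1 - g.1 1 * g'.1 0 := by rw [hd]; simp [cr]
  have hpos : 0 < (d 0 : ℝ) ^ 2 + (d 1 : ℝ) ^ 2 + (d 2 : ℝ) ^ 2 := by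
    by_contra hcon
    push Not at hcon
    have h0 : (d 0 : ℝ) = 0 := by
      nlinarith [sq_nonneg (d 0 : ℝ), sq_nonneg (d 1 : ℝ), sq_nonneg (d 2 : ℝ)]
    have h1 : (d 1 : ℝ) = 0 := by
      nlinarith [sq_nonneg (d 0 : ℝ), sq_nonneg (d 1 : ℝ), sq_nonneg (d 2 : ℝ)]
    have h2 : (d 2 : ℝ) = 0 := by
      nlinarith [sq_nonneg (d 0 : ℝ), sq_nonneg (d 1 : ℝ), sq_nonneg (d 2 : ℝ)]
    apply h
    funext k
    fin_cases k
    · exact_mod_cast h0
    · exact_mod_cast h1
    · exact_mod_cast h2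
  have e : ∀ (m : (Fin 3 → ℚ) × ℚ) (v : V), rl m v = m.1 0 * v 0 + m.1 1 * v 1 + m.1 2 * v 2 := by
    intro m v; unfold rl; rw [Fin.sum_univ_three]
  refine ⟨![(g'.1 1 : ℝ) * d 2 - g'.1 2 * d 1, g'.1 2 * d 0 - g'.1 0 * d 2,
      g'.1 0 * d 1 - g'.1 1 * d 0],
    ![(d 1 : ℝ) * g.1 2 - d 2 * g.1 1, d 2 * g.1 0 - d 0 * g.1 2, d 0 * g.1 1 - d 1 * g.1 0],
    ?_, ?_, ?_, ?_⟩
  · rw [e]
    have : (g.1 0 : ℝ) * (g'.1 1 * d 2 - g'.1 2 * d 1) + g.1 1 * (g'.1 2 * d 0 - g'.1 0 * d 2) +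
        g.1 2 * (g'.1 0 * d 1 - g'.1 1 * d 0) = d 0 ^ 2 + d 1 ^ 2 + d 2 ^ 2 := by
      rw [s0, s1, s2]; ring
    simpa [this] using hpos
  · rw [e]; simp; ring
  · rw [e]; simp; ring
  · rw [e]
    have : (g'.1 0 : ℝ) * (d 1 * g.1 2 - d 2 * g.1 1) + g'.1 1 * (d 2 * g.1 0 - d 0 * g.1 2) +
        g'.1 2 * (d 0 * g.1 1 - d 1 * g.1 0) = d 0 ^ 2 + d 1 ^ 2 + d 2 ^ 2 := by
      rw [s0, s1, s2]; ring
    simpa [this] using hpos

theorem fst_ne_of_cr {g g' : (Fin 3 → ℚ) × ℚ} (h : cr g g' ≠ 0) : g.1 ≠ 0 ∧ g'.1 ≠ 0 := by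
  constructor
  · intro h0
    apply h
    funext k
    fin_cases k <;> simp [cr, h0]
  · intro h0
    apply h
    funext k
    fin_cases k <;> simp [cr, h0]

/-- an open set is not covered by finitely many planes -/
theorem exists_off_planes (P : Finset ((Fin 3 → ℚ) × ℚ)) (hP : ∀ h ∈ P, h.1 ≠ 0) :
    ∀ {W : Set V}, IsOpen W → W.Nonempty → ∃ y ∈ W, ∀ h ∈ P, rf o h y ≠ 0 := by
  classical
  induction P using Finset.induction_on with
  | empty => intro W _ hne; exact ⟨hne.some, hne.some_mem, by simp⟩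
  | insert g P hg ih =>
    intro W hW hne
    obtain ⟨y, hy, hyP⟩ := ih (fun h hh => hP h (Finset.mem_insert_of_mem hh)) hW hne
    -- the open set where the functions of `P` do not vanish
    have hU : IsOpen (W ∩ {z | ∀ h ∈ P, rf o h z ≠ 0}) := by
      refine hW.inter ?_
      have : {z | ∀ h ∈ P, rf o h z ≠ 0} = ⋂ h ∈ P, {z : V | rf o h z ≠ 0} := by ext; simp
      rw [this]
      exact isOpen_biInter_finset fun h _ => isOpen_ne_fun (continuous_rf o h) continuous_const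
    by_cases hgy : rf o g y = 0
    · obtain ⟨k, hk⟩ : ∃ k, g.1 k ≠ 0 := by
        by_contra hcon
        push Not at hcon
        exact hP g (Finset.mem_insert_self g P) (funext hcon)
      have hv : rl g (Pi.single k 1) ≠ 0 := by
        unfold rl
        rw [Finset.sum_eq_single k (fun b _ hb => by rw [Pi.single_eq_of_ne hb]; ring)
          (fun h => absurd (Finset.mem_univ k) h), Pi.single_eq_same, mul_one]
        exact_mod_cast hk
      have hc : Continuous fun t : ℝ => y + t • (Pi.single k 1 : V) := by fun_prop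
      have h1 : ∀ᶠ t in 𝓝 (0:ℝ), y + t • (Pi.single k 1 : V) ∈ W ∩ {z | ∀ h ∈ P, rf o h z ≠ 0} := by
        refine hc.continuousAt.preimage_mem_nhds ?_
        rw [zero_smul, add_zero]
        exact hU.mem_nhds ⟨hy, hyP⟩
      obtain ⟨t, ht, ht0⟩ := ((h1.filter_mono nhdsWithin_le_nhds).and
        (self_mem_nhdsWithin (s := Ioi (0:ℝ)))).exists
      refine ⟨_, ht.1, fun h hh => ?_⟩
      rcases Finset.mem_insert.1 hh with rfl | hh
      · rw [rf_add_smul, hgy, zero_add]
        exact mul_ne_zero (ne_of_gt ht0) hv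
      · exact ht.2 h hh
    · refine ⟨y, hy, fun h hh => ?_⟩
      rcases Finset.mem_insert.1 hh with rfl | hh
      · exact hgy
      · exact hyP h hh

/-- the signed half space -/
def hs (o : V) (h : (Fin 3 → ℚ) × ℚ) (s : Bool) : Set V :=
  {x | if s then rf o h x ≤ 0 else 0 ≤ rf o h x}

/-- the cell of the tile `Q` with planes `P` and sign pattern `s` -/
def scell (o : V) (Q : Set V) (P s : Finset ((Fin 3 → ℚ) × ℚ)) : Set V :=
  {x | x ∈ Q ∧ ∀ h ∈ P, (h ∈ s → rf o h x ≤ 0) ∧ (h ∉ s → 0 ≤ rf o h x)}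

theorem rf_neg (o : V) (h : (Fin 3 → ℚ) × ℚ) (x : V) : rf o (-h) x = - rf o h x := by
  unfold rf
  simp only [Prod.fst_neg, Prod.snd_neg, Pi.neg_apply, Rat.cast_neg]
  rw [neg_sub', ← Finset.sum_neg_distrib]
  congr 1
  refine Finset.sum_congr rfl fun k _ => ?_
  ring

theorem ratPoly_scell {Q : Set V} (hQ : RatPoly o Q) (P s : Finset ((Fin 3 → ℚ) × ℚ)) :
    RatPoly o (scell o Q P s) := by
  classical
  obtain ⟨H, rfl⟩ := hQ
  refine ⟨H ∪ (P.filter (· ∈ s)) ∪ (P.filter (· ∉ s)).image (fun h => -h), ?_⟩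
  ext x
  constructor
  · rintro ⟨h1, h2⟩ h hh
    rcases Finset.mem_union.1 hh with hh | hh
    · rcases Finset.mem_union.1 hh with hh | hh
      · exact h1 h hh
      · rw [Finset.mem_filter] at hh
        exact (h2 h hh.1).1 hh.2
    · obtain ⟨h', hh', rfl⟩ := Finset.mem_image.1 hh
      rw [Finset.mem_filter] at hh'
      rw [rf_neg]
      have := (h2 h' hh'.1).2 hh'.2
      linarith
  · intro h
    refine ⟨fun h' hh' => h h' (by simp [hh']), fun h' hh' => ⟨fun hs => h h' (by simp [hh', hs]),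
      fun hs => ?_⟩⟩
    have := h (-h') (by
      refine Finset.mem_union_right _ (Finset.mem_image_of_mem _ ?_)
      rw [Finset.mem_filter]; exact ⟨hh', hs⟩)
    rw [rf_neg] at this
    linarith

/-- dyadic cubes are rational polytopes -/
theorem ratPoly_dyc (o : V) (m : ℕ) (z : Fin 3 → ℤ) : RatPoly o (dyc o m z) := by
  classical
  refine ⟨(Finset.univ.image fun k : Fin 3 => ((fun j => if j = k then (1:ℚ) else 0,
      ((z k : ℚ) + 1) / 2 ^ m) : (Fin 3 → ℚ) × ℚ)) ∪
    Finset.univ.image fun k : Fin 3 => ((fun j => if j = k then (-1:ℚ) else 0,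
      -((z k : ℚ) / 2 ^ m)) : (Fin 3 → ℚ) × ℚ), ?_⟩
  have e1 : ∀ (k : Fin 3) (x : V), rf o ((fun j => if j = k then (1:ℚ) else 0,
      ((z k : ℚ) + 1) / 2 ^ m) : (Fin 3 → ℚ) × ℚ) x = (x k - o k) - (z k + 1) / 2 ^ m := by
    intro k x
    unfold rf
    rw [Finset.sum_eq_single k (fun b _ hb => by simp [hb])
      (fun h => absurd (Finset.mem_univ k) h)]
    push_cast
    simp
  have e2 : ∀ (k : Fin 3) (x : V), rf o ((fun j => if j = k then (-1:ℚ) else 0,
      -((z k : ℚ) / 2 ^ m)) : (Fin 3 → ℚ) × ℚ) x = -(x k - o k) + z k / 2 ^ m := by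
    intro k x
    unfold rf
    rw [Finset.sum_eq_single k (fun b _ hb => by simp [hb])
      (fun h => absurd (Finset.mem_univ k) h)]
    push_cast
    simp
  ext x
  constructor
  · intro hx h hh
    rcases Finset.mem_union.1 hh with hh | hh
    · obtain ⟨k, -, rfl⟩ := Finset.mem_image.1 hh
      rw [e1]; linarith [(hx k).2]
    · obtain ⟨k, -, rfl⟩ := Finset.mem_image.1 hh
      rw [e2]; linarith [(hx k).1]
  · intro h k
    have h1 := h _ (Finset.mem_union_left _ (Finset.mem_image_of_mem _ (Finset.mem_univ k)))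
    have h2 := h _ (Finset.mem_union_right _ (Finset.mem_image_of_mem _ (Finset.mem_univ k)))
    rw [e1] at h1
    rw [e2] at h2
    constructor <;> linarith

end P073.KW
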