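import Vale.Agent.P073.KW720.Exists

/-!
# P073, block KW: existence of rational convex tilings containing a rational graph (continued)
-/

open Set Metric Topology Filter

namespace P073.KW

open Vale.Agent.P073.St (V)
open P073.Net P073.PR720

variable {Ω : Set V} {o : V} {ρ : V → ℝ}

theorem interior_cell (T : Tl ρ o) : interior (cell T) ⊆ ocell T := by
  intro x hx k
  have hx' := interior_subset hx
  have hc : ∀ c : ℝ, Continuous fun t : ℝ => x + (t * c) • (Pi.single k 1 : V) := by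
    intro c; fun_prop
  have key : ∀ c : ℝ, ∃ t > 0, x + (t * c) • (Pi.single k 1 : V) ∈ cell T := by
    intro c
    have h1 : ∀ᶠ t in 𝓝 (0:ℝ), x + (t * c) • (Pi.single k 1 : V) ∈ interior (cell T) := by
      refine (hc c).continuousAt.preimage_mem_nhds ?_
      rw [zero_mul, zero_smul, add_zero]
      exact isOpen_interior.mem_nhds hx
    obtain ⟨t, ht, ht0⟩ := ((h1.filter_mono nhdsWithin_le_nhds).and
      (self_mem_nhdsWithin (s := Ioi (0:ℝ)))).exists
    exact ⟨t, ht0, interior_subset ht⟩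
  constructor
  · show lo T k < x k
    refine lt_of_le_of_ne (mem_cell.1 hx' k).1 fun he => ?_
    obtain ⟨t, ht, hm⟩ := key (-1)
    have h1 := (mem_cell.1 hm k).1
    have e : (x + (t * -1) • (Pi.single k 1 : V)) k = x k - t := by
      rw [Pi.add_apply, Pi.smul_apply, Pi.single_eq_same, smul_eq_mul]; ring
    rw [e, he] at h1
    linarith
  · show x k < hi T k
    refine lt_of_le_of_ne (mem_cell.1 hx' k).2 fun he => ?_
    obtain ⟨t, ht, hm⟩ := key 1
    have h1 := (mem_cell.1 hm k).2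
    have e : (x + (t * 1) • (Pi.single k 1 : V)) k = x k + t := by
      rw [Pi.add_apply, Pi.smul_apply, Pi.single_eq_same, smul_eq_mul]; ring
    rw [e, ← he] at h1
    linarith

/-- the index set of the refined tiling -/
def RI (ρ : V → ℝ) (o : V) (P : Tl ρ o → Finset ((Fin 3 → ℚ) × ℚ)) : Type :=
  {q : Tl ρ o × Finset ((Fin 3 → ℚ) × ℚ) // q.2 ⊆ P q.1 ∧
    (interior (scell o (cell q.1) (P q.1) q.2)).Nonempty}

variable {P : Tl ρ o → Finset ((Fin 3 → ℚ) × ℚ)}

/-- the cell -/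
def rc (q : RI ρ o P) : Set V := scell o (cell q.1.1) (P q.1.1) q.1.2

theorem isClosed_scell {Q : Set V} (hQ : IsClosed Q) (P s : Finset ((Fin 3 → ℚ) × ℚ)) :
    IsClosed (scell o Q P s) := by
  have : scell o Q P s = Q ∩ ⋂ h ∈ P, {x | (h ∈ s → rf o h x ≤ 0) ∧ (h ∉ s → 0 ≤ rf o h x)} := by
    ext x; simp [scell]
  rw [this]
  refine hQ.inter (isClosed_biInter fun h _ => ?_)
  by_cases hs : h ∈ s
  · simp only [hs, true_imp_iff, not_true_eq_false, false_imp_iff, and_true]
    exact isClosed_le (continuous_rf o h) continuous_const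
  · simp only [hs, false_imp_iff, not_false_eq_true, true_imp_iff, true_and]
    exact isClosed_le continuous_const (continuous_rf o h)

/-- a point of the open cube off the planes is in the interior of a cell with the right signs -/
theorem exists_rc [DecidableEq ((Fin 3 → ℚ) × ℚ)] {Q : Tl ρ o} {y : V} (hy : y ∈ ocell Q)
    (hyP : ∀ h ∈ P Q, rf o h y ≠ 0) :
    ∃ q : RI ρ o P, y ∈ interior (rc q) ∧ q.1.1 = Q ∧ ∀ h ∈ P Q, (h ∈ q.1.2 ↔ rf o h y < 0) := by
  classical
  set s := (P Q).filter fun h => rf o h y < 0 with hs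
  have hmem : ∀ h ∈ P Q, (h ∈ s ↔ rf o h y < 0) := fun h hh => by
    rw [hs, Finset.mem_filter]; exact ⟨fun h => h.2, fun h => ⟨hh, h⟩⟩
  have hint : y ∈ interior (scell o (cell Q) (P Q) s) := by
    rw [mem_interior_iff_mem_nhds]
    have h1 : ∀ᶠ z in 𝓝 y, ∀ h ∈ P Q, (h ∈ s → rf o h z ≤ 0) ∧ (h ∉ s → 0 ≤ rf o h z) := by
      rw [Filter.eventually_all_finset]
      intro h hh
      rcases lt_or_gt_of_ne (hyP h hh) with h2 | h2
      · filter_upwards [(continuous_rf o h).continuousAt.eventually_lt_const h2] with z hz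
        exact ⟨fun _ => hz.le, fun hn => absurd ((hmem h hh).2 h2) hn⟩
      · filter_upwards [(continuous_rf o h).continuousAt.eventually_const_lt h2] with z hz
        exact ⟨fun hm => absurd ((hmem h hh).1 hm) (not_lt.2 h2.le), fun _ => hz.le⟩
    filter_upwards [h1, (isOpen_ocell Q).mem_nhds hy] with z hz hzQ
    exact ⟨ocell_subset Q hzQ, hz⟩
  exact ⟨⟨(Q, s), Finset.filter_subset _ _, ⟨y, hint⟩⟩, hint, rfl, hmem⟩

theorem finite_RI_fiber (Q : Tl ρ o) : {q : RI ρ o P | q.1.1 = Q}.Finite := by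
  classical
  have h1 : Set.Finite {p : Tl ρ o × Finset ((Fin 3 → ℚ) × ℚ) | p.1 = Q ∧ p.2 ∈ (P Q).powerset} := by
    have : ({Q} ×ˢ ((P Q).powerset : Set (Finset ((Fin 3 → ℚ) × ℚ)))).Finite :=
      (finite_singleton Q).prod (Finset.finite_toSet _)
    exact this.subset fun p hp => ⟨hp.1, hp.2⟩
  refine (h1.preimage (f := (Subtype.val : RI ρ o P → _)) Subtype.val_injective.injOn).subset ?_
  intro q hq
  have hq' : q.1.1 = Q := hq
  refine ⟨hq', ?_⟩
  rw [Finset.mem_powerset, ← hq']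
  exact q.2.1

/-- the refined tiling -/
def refine (hΩ : IsOpen Ω) (hρ : SizeFn Ω ρ) (P : Tl ρ o → Finset ((Fin 3 → ℚ) × ℚ))
    (hP : ∀ Q, ∀ h ∈ P Q, h.1 ≠ 0) : Tiling Ω o where
  I := RI ρ o P
  C := rc
  compact := fun q => (isCompact_cell q.1.1).of_isClosed_subset
    (isClosed_scell (isClosed_cell _) _ _) fun _ hx => hx.1
  poly := fun q => ratPoly_scell (ratPoly_dyc o _ _) _ _
  int := fun q => q.2.2
  disj := by
    classical
    intro q q' hne
    rw [Set.disjoint_left]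
    intro x hx hx'
    have hsub : ∀ q : RI ρ o P, rc q ⊆ cell q.1.1 := fun q _ h => h.1
    have h1 : q.1.1 = q'.1.1 := by
      refine tl_ext ⟨x, ?_, hsub q' (interior_subset hx')⟩
      exact interior_cell _ (interior_mono (hsub q) hx)
    have h2 : q.1.2 ≠ q'.1.2 := fun h2 => hne (Subtype.ext (Prod.ext h1 h2))
    -- a plane in one of the patterns
    have main : ∀ q q' : RI ρ o P, x ∈ interior (rc q) → x ∈ interior (rc q') → q.1.1 = q'.1.1 →
        ¬ q.1.2 ⊆ q'.1.2 → False := by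
      intro q q' hx hx' h1 h3
      rw [Finset.subset_iff] at h3
      push Not at h3
      obtain ⟨h, hs, hs'⟩ := h3
      have hP1 : h ∈ P q.1.1 := q.2.1 hs
      have hP2 : h ∈ P q'.1.1 := h1 ▸ hP1
      obtain ⟨y, hy, hyh⟩ := exists_off_planes (o := o) {h} (fun g hg => by
        rw [Finset.mem_singleton] at hg; rw [hg]; exact hP _ h hP1)
        (isOpen_interior.inter isOpen_interior) ⟨x, hx, hx'⟩
      have e1 := ((interior_subset hy.1).2 h hP1).1 hs
      have e2 := ((interior_subset hy.2).2 h hP2).2 hs'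
      exact hyh h (Finset.mem_singleton_self h) (le_antisymm e1 e2)
    by_cases h3 : q.1.2 ⊆ q'.1.2
    · have h4 : ¬ q'.1.2 ⊆ q.1.2 := fun h4 => h2 (Finset.Subset.antisymm h3 h4)
      exact main q' q hx' hx h1.symm h4
    · exact main q q' hx hx' h1 h3
  cover := by
    classical
    apply Subset.antisymm
    · exact iUnion_subset fun q x hx => cell_subset hρ _ hx.1
    · intro x hx
      rw [← iUnion_cell (o := o) hρ] at hx
      obtain ⟨Q, hQ⟩ := mem_iUnion.1 hx
      have hfin : (⋃ q ∈ {q : RI ρ o P | q.1.1 = Q}, rc q) = closure (⋃ q ∈ {q : RI ρ o P | q.1.1 = Q}, rc q) :=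
        ((finite_RI_fiber Q).isClosed_biUnion fun q _ =>
          isClosed_scell (isClosed_cell _) _ _).closure_eq.symm
      have hxcl : x ∈ closure (⋃ q ∈ {q : RI ρ o P | q.1.1 = Q}, rc q) := by
        rw [_root_.mem_closure_iff]
        intro U hU hxU
        obtain ⟨y0, hy0⟩ := interior_nonempty_of_mem hQ (hU.mem_nhds hxU)
        obtain ⟨y, hy, hyP⟩ := exists_off_planes (o := o) (P Q) (hP Q)
          (hU.inter (isOpen_ocell Q)) ⟨y0, hy0⟩
        obtain ⟨q, hq, hqQ, -⟩ := exists_rc hy.2 hyP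
        exact ⟨y, hy.1, mem_biUnion (show q ∈ {q : RI ρ o P | q.1.1 = Q} from hqQ)
          (interior_subset hq)⟩
      rw [← hfin] at hxcl
      obtain ⟨q, -, hq⟩ := mem_iUnion₂.1 hxcl
      exact mem_iUnion.2 ⟨q, hq⟩
  lf := by
    intro x hx
    obtain ⟨R, hR, hb⟩ := Metric.isOpen_iff.1 hΩ x hx
    have hc : closedBall x (R / 2) ⊆ Ω := (closedBall_subset_ball (by linarith)).trans hb
    refine ⟨closedBall x (R / 2), closedBall_mem_nhds x (half_pos hR), ?_⟩
    have h1 := finite_cells (o := o) hρ hc (isCompact_closedBall x (R / 2))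
    refine (h1.biUnion fun Q _ => finite_RI_fiber Q).subset ?_
    rintro q ⟨y, hy, hyb⟩
    exact mem_biUnion (show q.1.1 ∈ {T : Tl ρ o | (cell T ∩ closedBall x (R / 2)).Nonempty} from
      ⟨y, hy.1, hyb⟩) rfl

/-- existence without the condition on the number of cells -/
def SpecExists' : Prop :=
  ∀ (Ω : Set V) (o : V) (G : Net.Graph Ω) (ε : V → ℝ), IsOpen Ω → SizeFn Ω ε →
    (∀ i, Rat o (G.a i) ∧ Rat o (G.b i)) →
    ∃ T : Tiling Ω o, (∀ i, segment ℝ (G.a i) (G.b i) ⊆ T.K1) ∧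
      ∀ i, ∀ x ∈ T.C i, ∀ y ∈ T.C i, ‖x - y‖ ≤ ε x

theorem norm_sub_le_cell {T : Tl ρ o} {x y : V} (hx : x ∈ cell T) (hy : y ∈ cell T) :
    ‖x - y‖ ≤ 1 / 2 ^ T.1.1 := by
  rw [pi_norm_le_iff_of_nonneg (by positivity)]
  intro k
  have a := mem_cell.1 hx k
  have b := mem_cell.1 hy k
  have e : hi T k = lo T k + 1 / 2 ^ T.1.1 := by
    rw [coord_hi, coord_lo, add_div]; ring
  rw [e] at a b
  rw [Real.norm_eq_abs, Pi.sub_apply, abs_le]
  constructor <;> linarith [a.1, a.2, b.1, b.2]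

theorem specExists' : SpecExists' := by
  classical
  intro Ω o G ε hΩ hε hG
  have hpl : ∀ i, ∃ g g' : (Fin 3 → ℚ) × ℚ, cr g g' ≠ 0 ∧
      ∀ x ∈ segment ℝ (G.a i) (G.b i), rf o g x = 0 ∧ rf o g' x = 0 := fun i =>
    exists_planes (hG i).1 (hG i).2 (G.ne i)
  choose g g' hcr hseg using hpl
  -- the edges which meet a tile
  have hfin : ∀ Q : Tl ε o, {i | (segment ℝ (G.a i) (G.b i) ∩ cell Q).Nonempty}.Finite := fun Q =>
    G.fin (cell Q) (cell_subset hε Q) (isCompact_cell Q)
  let P : Tl ε o → Finset ((Fin 3 → ℚ) × ℚ) := fun Q =>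
    (hfin Q).toFinset.image g ∪ (hfin Q).toFinset.image g'
  have hP : ∀ Q, ∀ h ∈ P Q, h.1 ≠ 0 := by
    intro Q h hh
    rcases Finset.mem_union.1 hh with hh | hh
    · obtain ⟨i, -, rfl⟩ := Finset.mem_image.1 hh
      exact (fst_ne_of_cr (hcr i)).1
    · obtain ⟨i, -, rfl⟩ := Finset.mem_image.1 hh
      exact (fst_ne_of_cr (hcr i)).2
  let T : Tiling Ω o := refine hΩ hε P hP
  refine ⟨T, fun i x hx => ?_, fun q x hx y hy => ?_⟩
  swap
  · have h1 := norm_sub_le_cell hx.1 hy.1
    exact h1.trans (tile_bounds hε q.1.1.2 hx.1).1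
  -- the four sign classes
  have hxΩ : x ∈ Ω := G.sub i hx
  obtain ⟨r, hr, hb, -, hmem⟩ := T.exists_radius hΩ hxΩ
  obtain ⟨R, hR, hRΩ⟩ := exists_rad (o := o) hΩ hε hxΩ
  obtain ⟨u, u', hu1, hu2, hu3, hu4⟩ := exists_dual (hcr i)
  have key : ∀ s s' : ℝ, (s = 1 ∨ s = -1) → (s' = 1 ∨ s' = -1) → ∃ q : RI ε o P, x ∈ rc q ∧
      g i ∈ P q.1.1 ∧ g' i ∈ P q.1.1 ∧
      (g i ∈ q.1.2 ↔ s = -1) ∧ (g' i ∈ q.1.2 ↔ s' = -1) := by
    intro s s' hs hs'
    -- the open set of points with the right signs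
    set W : Set V := ball x (min r R) ∩ {y | 0 < s * rf o (g i) y ∧ 0 < s' * rf o (g' i) y} with hW
    have hWo : IsOpen W := by
      refine isOpen_ball.inter ?_
      exact (isOpen_lt continuous_const (continuous_const.mul (continuous_rf o _))).inter
        (isOpen_lt continuous_const (continuous_const.mul (continuous_rf o _)))
    obtain ⟨y0, hy0⟩ : W.Nonempty := by
      have hc : Continuous fun t : ℝ => x + t • (s • u + s' • u') := by fun_prop
      have h1 : ∀ᶠ t in 𝓝 (0:ℝ), x + t • (s • u + s' • u') ∈ ball x (min r R) := by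
        refine hc.continuousAt.preimage_mem_nhds ?_
        rw [zero_smul, add_zero]
        exact ball_mem_nhds x (lt_min hr hR.pos)
      obtain ⟨t, ht, ht0⟩ := ((h1.filter_mono nhdsWithin_le_nhds).and
        (self_mem_nhdsWithin (s := Ioi (0:ℝ)))).exists
      have ht0' : 0 < t := ht0
      have hss : s * s = 1 := by rcases hs with h | h <;> rw [h] <;> norm_num
      have hss' : s' * s' = 1 := by rcases hs' with h | h <;> rw [h] <;> norm_num
      refine ⟨_, ht, ?_, ?_⟩
      · rw [rf_add_smul, (hseg i x hx).1, rl_add, rl_smul, rl_smul, hu3, mul_zero, add_zero,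
          zero_add]
        have : s * (t * (s * rl (g i) u)) = (s * s) * (t * rl (g i) u) := by ring
        rw [this, hss, one_mul]
        exact mul_pos ht0' hu1
      · rw [rf_add_smul, (hseg i x hx).2, rl_add, rl_smul, rl_smul, hu2, mul_zero, zero_add,
          zero_add]
        have : s' * (t * (s' * rl (g' i) u')) = (s' * s') * (t * rl (g' i) u') := by ring
        rw [this, hss', one_mul]
        exact mul_pos ht0' hu4
    -- a tile at `y0`
    have hy0r : y0 ∈ ball x r := ball_subset_ball (min_le_left _ _) hy0.1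
    have hy0R : y0 ∈ ball x R := ball_subset_ball (min_le_right _ _) hy0.1
    obtain ⟨Q, hQ⟩ := mem_iUnion.1 (hR.cov hy0R)
    have hxQ : x ∈ cell Q := hR.mem Q ⟨y0, hQ, hy0R⟩
    have hiQ : i ∈ (hfin Q).toFinset := by
      rw [Set.Finite.mem_toFinset]; exact ⟨x, hx, hxQ⟩
    have hgP : g i ∈ P Q := Finset.mem_union_left _ (Finset.mem_image_of_mem g hiQ)
    have hgP' : g' i ∈ P Q := Finset.mem_union_right _ (Finset.mem_image_of_mem g' hiQ)
    obtain ⟨y, hy, hyP⟩ := exists_off_planes (o := o) (P Q) (hP Q) (hWo.inter (isOpen_ocell Q))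
      (interior_nonempty_of_mem hQ (hWo.mem_nhds hy0))
    obtain ⟨q, hq, hqQ, hqs⟩ := exists_rc hy.2 hyP
    have hyW := hy.1
    refine ⟨q, hmem q ⟨y, interior_subset hq, ball_subset_ball (min_le_left _ _) hyW.1⟩,
      hqQ ▸ hgP, hqQ ▸ hgP', ?_, ?_⟩
    · rw [hqs _ hgP]
      have h1 := hyW.2.1
      rcases hs with rfl | rfl
      · constructor
        · intro h2; linarith
        · intro h2; norm_num at h2
      · constructor
        · intro _; rfl
        · intro _; linarith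
    · rw [hqs _ hgP']
      have h1 := hyW.2.2
      rcases hs' with rfl | rfl
      · constructor
        · intro h2; linarith
        · intro h2; norm_num at h2
      · constructor
        · intro _; rfl
        · intro _; linarith
  obtain ⟨q1, m1, -, -, a1, b1⟩ := key 1 1 (Or.inl rfl) (Or.inl rfl)
  obtain ⟨q2, m2, -, -, a2, b2⟩ := key (-1) 1 (Or.inr rfl) (Or.inl rfl)
  obtain ⟨q3, m3, -, -, a3, b3⟩ := key 1 (-1) (Or.inl rfl) (Or.inr rfl)
  have n1 : ¬ ((1:ℝ) = -1) := by norm_num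
  refine ⟨q1, q2, q3, ?_, ?_, ?_, m1, m2, m3⟩
  · rintro rfl; exact n1 (a1.1 (a2.2 rfl))
  · rintro rfl; exact n1 (b1.1 (b3.2 rfl))
  · rintro rfl; exact n1 (a3.1 (a2.2 rfl))

end P073.KW
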