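import Vale.Agent.P073.KW720.RatPts

/-!
# P073, block KW: rational convex tilings (the faces are rational polygons)
-/

open Set Metric Topology Filter

namespace P073.KW

open Vale.Agent.P073.St (V)
open P073.Net P073.PR720

variable {Ω : Set V} {o : V}

/-- a compact convex subset of a line is a segment between extreme points -/
theorem seg_of_line {A : Set V} (hc : IsCompact A) (hconv : Convex ℝ A) (hne : A.Nonempty)
    {a b : V} (hA : A ⊆ {y | ∃ t : ℝ, y = a + t • b}) :
    ∃ u v, u ∈ A.extremePoints ℝ ∧ v ∈ A.extremePoints ℝ ∧ A = segment ℝ u v := by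
  by_cases hb : b = 0
  · subst hb
    have hsing : A = {a} := by
      apply Subset.antisymm
      · intro y hy
        obtain ⟨t, ht⟩ := hA hy
        rw [smul_zero, add_zero] at ht
        exact ht
      · obtain ⟨y, hy⟩ := hne
        obtain ⟨t, ht⟩ := hA hy
        rw [smul_zero, add_zero] at ht
        rw [singleton_subset_iff, ← ht]; exact hy
    refine ⟨a, a, ?_, ?_, ?_⟩
    · rw [hsing]; simp
    · rw [hsing]; simp
    · rw [hsing, segment_same]
  · obtain ⟨k0, hk0⟩ : ∃ k0, b k0 ≠ 0 := by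
      by_contra hcon
      push Not at hcon
      exact hb (funext hcon)
    have hinj : ∀ y ∈ A, ∀ z ∈ A, y k0 = z k0 → y = z := by
      intro y hy z hz h
      obtain ⟨t, rfl⟩ := hA hy
      obtain ⟨s, rfl⟩ := hA hz
      simp only [Pi.add_apply, Pi.smul_apply, smul_eq_mul] at h
      have h2 : (t - s) * b k0 = 0 := by linarith
      rcases mul_eq_zero.1 h2 with h3 | h3
      · have : t = s := by linarith
        rw [this]
      · exact absurd h3 hk0
    have hcont : Continuous fun y : V => y k0 := continuous_apply k0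
    obtain ⟨u, hu, hmin⟩ := hc.exists_isMinOn hne hcont.continuousOn
    obtain ⟨v, hv, hmax⟩ := hc.exists_isMaxOn hne hcont.continuousOn
    have hmin' : ∀ y ∈ A, u k0 ≤ y k0 := fun y hy => hmin hy
    have hmax' : ∀ y ∈ A, y k0 ≤ v k0 := fun y hy => hmax hy
    have coord : ∀ (s t : ℝ) (y z : V), (s • y + t • z) k0 = s * y k0 + t * z k0 := by
      intro s t y z
      simp only [Pi.add_apply, Pi.smul_apply, smul_eq_mul]
    refine ⟨u, v, ⟨hu, ?_⟩, ⟨hv, ?_⟩, ?_⟩
    · rintro x1 h1 x2 h2 ⟨s, t, hs, ht, hst, he⟩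
      have h3 := coord s t x1 x2
      rw [he] at h3
      have h4 := hmin' x1 h1
      have h5 := hmin' x2 h2
      apply hinj x1 h1 u hu
      have e : s * (x1 k0 - u k0) + t * (x2 k0 - u k0) = 0 := by
        linear_combination (-1 : ℝ) * h3 - u k0 * hst
      have p1 := mul_nonneg hs.le (sub_nonneg.2 h4)
      have p2 := mul_nonneg ht.le (sub_nonneg.2 h5)
      have p3 : s * (x1 k0 - u k0) = 0 := by linarith
      rcases mul_eq_zero.1 p3 with h6 | h6
      · exact absurd h6 hs.ne'
      · linarith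
    · rintro x1 h1 x2 h2 ⟨s, t, hs, ht, hst, he⟩
      have h3 := coord s t x1 x2
      rw [he] at h3
      have h4 := hmax' x1 h1
      have h5 := hmax' x2 h2
      apply hinj x1 h1 v hv
      have e : s * (v k0 - x1 k0) + t * (v k0 - x2 k0) = 0 := by
        linear_combination h3 + v k0 * hst
      have p1 := mul_nonneg hs.le (sub_nonneg.2 h4)
      have p2 := mul_nonneg ht.le (sub_nonneg.2 h5)
      have p3 : s * (v k0 - x1 k0) = 0 := by linarith
      rcases mul_eq_zero.1 p3 with h6 | h6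
      · exact absurd h6 hs.ne'
      · linarith
    · apply Subset.antisymm
      · intro y hy
        have h1 := hmin' y hy
        have h2 := hmax' y hy
        rcases (h1.trans h2).eq_or_lt with h3 | h3
        · have : y = u := hinj y hy u hu (by linarith)
          rw [this]; exact left_mem_segment ℝ u v
        · have hd : 0 < v k0 - u k0 := by linarith
          have hs0 : 0 ≤ (y k0 - u k0) / (v k0 - u k0) := div_nonneg (by linarith) hd.le
          have hs1 : (y k0 - u k0) / (v k0 - u k0) ≤ 1 := by rw [div_le_one hd]; linarith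
          refine ⟨1 - (y k0 - u k0) / (v k0 - u k0), (y k0 - u k0) / (v k0 - u k0),
            by linarith, hs0, by ring, ?_⟩
          symm
          refine hinj y hy _ (hconv hu hv (by linarith) hs0 (by ring)) ?_
          rw [coord]
          field_simp
          ring
      · exact hconv.segment_subset hu hv

/-- extreme points of a segment -/
theorem eq_of_extreme_segment {u v y : V} (h : y ∈ (segment ℝ u v).extremePoints ℝ) :
    y = u ∨ y = v := by
  by_contra hcon
  push Not at hcon
  have h1 : y ∈ openSegment ℝ u v := mem_openSegment_of_ne_left_right hcon.1.symm hcon.2.symm h.1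
  exact hcon.1 (h.2 (left_mem_segment ℝ u v) (right_mem_segment ℝ u v) h1).symm

/-- in dimension three every functional has a non-zero vector in the kernel -/
theorem exists_ker (n : V →L[ℝ] ℝ) : ∃ v : V, v ≠ 0 ∧ n v = 0 := by
  set a := n (Pi.single 0 1) with ha
  set b := n (Pi.single 1 1) with hb
  by_cases h : a = 0
  · refine ⟨Pi.single 0 1, ?_, h⟩
    intro h0
    have := congrFun h0 0
    simp at this
  · refine ⟨b • Pi.single 0 1 - a • Pi.single 1 1, ?_, ?_⟩
    · intro h0
      have := congrFun h0 1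
      simp at this
      exact h this
    · rw [map_sub, map_smul, map_smul, ← ha, ← hb, smul_eq_mul, smul_eq_mul]; ring

namespace Tiling

variable (T : Tiling Ω o)

theorem finite_meet {K : Set V} (hK : IsCompact K) (hKΩ : K ⊆ Ω) :
    {i | (T.C i ∩ K).Nonempty}.Finite := by
  classical
  choose! U hU hfin using T.lf
  obtain ⟨t, ht, hcov⟩ := hK.elim_nhds_subcover U fun x hx => hU x (hKΩ hx)
  refine (t.finite_toSet.biUnion fun x hx => hfin x (hKΩ (ht x hx))).subset ?_
  rintro i ⟨y, hy, hyK⟩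
  obtain ⟨x, hx, hyx⟩ := mem_iUnion₂.1 (hcov hyK)
  exact mem_biUnion hx ⟨y, hy, hyx⟩

/-- every triple intersection is a rational segment -/
theorem triple_segment (hΩ : IsOpen Ω) {i j k : T.I} (hij : i ≠ j) (hik : i ≠ k) (hjk : j ≠ k)
    (hne : (T.C i ∩ T.C j ∩ T.C k).Nonempty) : ∃ u v, Rat o u ∧ Rat o v ∧
      T.C i ∩ T.C j ∩ T.C k = segment ℝ u v := by
  obtain ⟨a, b, hab⟩ := T.triple_line hΩ hij hik hjk
  have hcomp : IsCompact (T.C i ∩ T.C j ∩ T.C k) :=
    ((T.compact i).inter_right (T.isClosed j)).inter_right (T.isClosed k)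
  have hconv : Convex ℝ (T.C i ∩ T.C j ∩ T.C k) :=
    ((T.convex i).inter (T.convex j)).inter (T.convex k)
  obtain ⟨u, v, hu, hv, he⟩ := seg_of_line hcomp hconv hne hab
  exact ⟨u, v, T.rat_of_extreme hΩ hij hik hjk hu, T.rat_of_extreme hΩ hij hik hjk hv, he⟩

/-- **faces are rational polygons** -/
theorem faceRat (hΩ : IsOpen Ω) {i j : T.I} (hij : i ≠ j) :
    (∃ s : Finset V, (∀ a ∈ s, Rat o a) ∧ T.C i ∩ T.C j = convexHull ℝ (s : Set V)) ∧
      ∃ u : Finset (V × V), (∀ p ∈ u, Rat o p.1 ∧ Rat o p.2) ∧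
        T.C i ∩ T.C j ∩ T.K1 = ⋃ p ∈ u, segment ℝ p.1 p.2 := by
  classical
  have hq : IsCompact (T.C i ∩ T.C j) := (T.compact i).inter_right (T.isClosed j)
  have hqΩ : T.C i ∩ T.C j ⊆ Ω := fun y hy => T.subset i hy.1
  have hqc : Convex ℝ (T.C i ∩ T.C j) := (T.convex i).inter (T.convex j)
  have hfin : {k | i ≠ k ∧ j ≠ k ∧ (T.C i ∩ T.C j ∩ T.C k).Nonempty}.Finite :=
    (T.finite_meet hq hqΩ).subset fun k hk => by
      rw [mem_ofPred_eq, inter_comm]; exact hk.2.2
  have hseg : ∀ k ∈ hfin.toFinset, ∃ p : V × V, Rat o p.1 ∧ Rat o p.2 ∧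
      T.C i ∩ T.C j ∩ T.C k = segment ℝ p.1 p.2 := by
    intro k hk
    rw [Set.Finite.mem_toFinset] at hk
    obtain ⟨u, v, hu, hv, he⟩ := T.triple_segment hΩ hij hk.1 hk.2.1 hk.2.2
    exact ⟨(u, v), hu, hv, he⟩
  choose! p hp1 hp2 hp3 using hseg
  have hK1 : T.C i ∩ T.C j ∩ T.K1 = ⋃ q ∈ hfin.toFinset.image p, segment ℝ q.1 q.2 := by
    apply Subset.antisymm
    · rintro y ⟨⟨hyi, hyj⟩, i', j', k', h1, h2, h3, m1, m2, m3⟩
      -- one of the three is different from `i`, `j`
      obtain ⟨k, hki, hkj, hk⟩ : ∃ k, i ≠ k ∧ j ≠ k ∧ y ∈ T.C k := by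
        by_contra hcon
        push Not at hcon
        have key : ∀ l, y ∈ T.C l → l = i ∨ l = j := by
          intro l hl
          by_cases hli : i = l
          · exact Or.inl hli.symm
          · by_cases hlj : j = l
            · exact Or.inr hlj.symm
            · exact absurd hl (hcon l hli hlj)
        rcases key i' m1 with a | a <;> rcases key j' m2 with b | b <;>
          rcases key k' m3 with c | c <;> subst a <;> subst b <;> simp_all
      have hkf : k ∈ hfin.toFinset := by
        rw [Set.Finite.mem_toFinset]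
        exact ⟨hki, hkj, ⟨y, ⟨hyi, hyj⟩, hk⟩⟩
      refine mem_biUnion (Finset.mem_image_of_mem p hkf) ?_
      rw [← hp3 k hkf]
      exact ⟨⟨hyi, hyj⟩, hk⟩
    · intro y hy
      obtain ⟨q, hqm, hyq⟩ := mem_iUnion₂.1 hy
      obtain ⟨k, hk, rfl⟩ := Finset.mem_image.1 hqm
      rw [← hp3 k hk] at hyq
      have hk' := hk
      rw [Set.Finite.mem_toFinset] at hk'
      exact ⟨hyq.1, i, j, k, hij, hk'.1, hk'.2.1, hyq.1.1, hyq.1.2, hyq.2⟩
  refine ⟨?_, hfin.toFinset.image p, ?_, hK1⟩
  swap
  · intro q hq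
    obtain ⟨k, hk, rfl⟩ := Finset.mem_image.1 hq
    exact ⟨hp1 k hk, hp2 k hk⟩
  -- extreme points
  have hext : (T.C i ∩ T.C j).extremePoints ℝ ⊆ ⋃ k ∈ hfin.toFinset, {(p k).1, (p k).2} := by
    intro y hy
    have hyq := hy.1
    have hyK : y ∈ T.K1 := by
      by_contra hK
      obtain ⟨n, c, hn, h1, h2⟩ := T.separate hij
      obtain ⟨r, hr0, hb, -, hmem⟩ := T.exists_radius hΩ (hqΩ hyq)
      have h3 := T.two_of_sep hij hyq.1 hyq.2 hK hn h1 h2 hb hmem
      obtain ⟨v, hv0, hv⟩ := exists_ker n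
      have hvpos : 0 < ‖v‖ := norm_pos_iff.2 hv0
      set s : ℝ := r / (2 * ‖v‖) with hs
      have hs0 : 0 < s := by positivity
      have hsv : s * ‖v‖ < r := by rw [hs]; field_simp; linarith
      have b1 : y + s • v ∈ ball y r := by
        rw [mem_ball, dist_eq_norm, add_sub_cancel_left, norm_smul, Real.norm_of_nonneg hs0.le]
        exact hsv
      have b2 : y + (-s) • v ∈ ball y r := by
        rw [mem_ball, dist_eq_norm, add_sub_cancel_left, norm_smul, Real.norm_eq_abs, abs_neg,
          abs_of_pos hs0]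
        exact hsv
      have e1 : n (y + s • v) = n y := by rw [map_add, map_smul, hv, smul_zero, add_zero]
      have e2 : n (y + (-s) • v) = n y := by rw [map_add, map_smul, hv, smul_zero, add_zero]
      have m1 : y + s • v ∈ T.C i ∩ T.C j := ⟨(h3 _ b1).1.2 e1.le, (h3 _ b1).2.2 e1.ge⟩
      have m2 : y + (-s) • v ∈ T.C i ∩ T.C j := ⟨(h3 _ b2).1.2 e2.le, (h3 _ b2).2.2 e2.ge⟩
      have h4 : y ∈ openSegment ℝ (y + s • v) (y + (-s) • v) :=
        ⟨1 / 2, 1 / 2, by norm_num, by norm_num, by norm_num, by module⟩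
      have h5 := hy.2 m1 m2 h4
      have h6 : s • v = 0 := add_eq_left.1 h5
      rcases smul_eq_zero.1 h6 with h7 | h7
      · exact hs0.ne' h7
      · exact hv0 h7
    have hyU : y ∈ ⋃ q ∈ hfin.toFinset.image p, segment ℝ q.1 q.2 := by
      rw [← hK1]; exact ⟨hyq, hyK⟩
    obtain ⟨q, hqm, hyq'⟩ := mem_iUnion₂.1 hyU
    obtain ⟨k, hk, rfl⟩ := Finset.mem_image.1 hqm
    have hsub : segment ℝ (p k).1 (p k).2 ⊆ T.C i ∩ T.C j := by
      rw [← hp3 k hk]; exact inter_subset_left
    have hyext : y ∈ (segment ℝ (p k).1 (p k).2).extremePoints ℝ :=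
      inter_extremePoints_subset_extremePoints_of_subset hsub ⟨hyq', hy⟩
    refine mem_biUnion hk ?_
    rcases eq_of_extreme_segment hyext with h | h
    · exact Or.inl h
    · exact Or.inr h
  have hfinE : ((T.C i ∩ T.C j).extremePoints ℝ).Finite :=
    (hfin.toFinset.finite_toSet.biUnion fun k _ => Set.toFinite {(p k).1, (p k).2}).subset hext
  refine ⟨hfinE.toFinset, fun a ha => ?_, ?_⟩
  · rw [Set.Finite.mem_toFinset] at ha
    obtain ⟨k, hk, hak⟩ := mem_iUnion₂.1 (hext ha)
    rcases hak with h | h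
    · rw [h]; exact hp1 k hk
    · rw [mem_singleton_iff.1 h]; exact hp2 k hk
  · rw [Set.Finite.coe_toFinset]
    have h1 := closure_convexHull_extremePoints hq hqc
    rw [(hfinE.isCompact_convexHull (𝕜 := ℝ)).isClosed.closure_eq] at h1
    exact h1.symm

end Tiling

end P073.KW
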