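import Vale.Agent.P073.KW720.Local

/-!
# P073, block KW: the Whitney tiling as a cell complex (part 3: the one-skeleton and the faces)
-/

open Set Metric Topology Filter

namespace P073.KW

open Vale.Agent.P073.St (V)
open P073.Net

variable {Ω : Set V} {ρ : V → ℝ} {o : V}

/-- the one-skeleton: the points which are contained in three tiles -/
def K1 (ρ : V → ℝ) (o : V) : Set V :=
  {x | ∃ T₁ T₂ T₃ : Tl ρ o, T₁ ≠ T₂ ∧ T₁ ≠ T₃ ∧ T₂ ≠ T₃ ∧ x ∈ cell T₁ ∧ x ∈ cell T₂ ∧ x ∈ cell T₃}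

/-- the tile `T` is free in direction `k` at the point `x` -/
def Fr (T : Tl ρ o) (x : V) (k : Fin 3) : Prop := lo T k ≠ x k ∧ hi T k ≠ x k

theorem Fr.lt {T : Tl ρ o} {x : V} {k : Fin 3} (h : Fr T x k) (hx : x ∈ cell T) :
    lo T k < x k ∧ x k < hi T k :=
  ⟨lt_of_le_of_ne (hx k).1 h.1, lt_of_le_of_ne (hx k).2 h.2.symm⟩

theorem eq_or_of_notMem_K1 {x : V} (hx : x ∉ K1 ρ o) {T T' T'' : Tl ρ o} (hne : T ≠ T')
    (h : x ∈ cell T) (h' : x ∈ cell T') (h'' : x ∈ cell T'') : T'' = T ∨ T'' = T' := by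
  by_contra hcon
  push Not at hcon
  exact hx ⟨T, T', T'', hne, fun e => hcon.1 e.symm, fun e => hcon.2 e.symm, h, h', h''⟩

namespace Rad

variable {x : V} {r : ℝ}

theorem eq_ct_congr (h : Rad ρ o x r) {σ σ' : Fin 3 → Bool} {T : Tl ρ o} (hT : x ∈ cell T)
    (e : T = h.ct σ) (hs : ∀ k, ¬ Fr T x k → σ' k = σ k) : T = h.ct σ' := by
  rw [h.eq_ct_iff hT] at e ⊢
  intro k
  constructor
  · intro e1
    rw [hs k fun hf => hf.1 e1]; exact (e k).1 e1
  · intro e1
    rw [hs k fun hf => hf.2 e1]; exact (e k).2 e1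

/-- a tile containing two octants is free in the directions in which they differ -/
theorem fr_of_ne (h : Rad ρ o x r) {σ σ' : Fin 3 → Bool} {T : Tl ρ o} (hT : x ∈ cell T)
    (e : T = h.ct σ) (e' : T = h.ct σ') {k : Fin 3} (hk : σ k ≠ σ' k) : Fr T x k := by
  rw [h.eq_ct_iff hT] at e e'
  constructor
  · intro e1
    exact hk (((e k).1 e1).trans ((e' k).1 e1).symm)
  · intro e1
    exact hk (((e k).2 e1).trans ((e' k).2 e1).symm)

/-- a point in exactly two tiles -/
theorem two_tiles (h : Rad ρ o x r) {T T' : Tl ρ o} (hne : T ≠ T') (hT : x ∈ cell T)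
    (hT' : x ∈ cell T') (hK : x ∉ K1 ρ o) :
    ∃ l, ((hi T l = x l ∧ lo T' l = x l) ∨ (lo T l = x l ∧ hi T' l = x l)) ∧
      ∀ k, k ≠ l → Fr T x k ∧ Fr T' x k := by
  classical
  have hall : ∀ σ, h.ct σ = T ∨ h.ct σ = T' := fun σ =>
    eq_or_of_notMem_K1 hK hne hT hT' (h.mem_ct σ)
  obtain ⟨σ0, e0⟩ := h.exists_eq_ct hT
  obtain ⟨σ1, e1⟩ := h.exists_eq_ct hT'
  -- `T` is not free in some direction
  have hnf : ∃ l, ¬ Fr T x l := by
    by_contra hcon
    push Not at hcon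
    apply hne
    rw [e1]
    exact h.eq_ct_congr hT e0 fun k hk => absurd (hcon k) hk
  obtain ⟨l, hl⟩ := hnf
  -- the octants which differ from `σ0` at `l` belong to `T'`
  have hT'oct : ∀ σ : Fin 3 → Bool, σ l ≠ σ0 l → T' = h.ct σ := by
    intro σ hσ
    rcases hall σ with e | e
    · exact absurd (h.fr_of_ne hT e.symm e0 hσ) hl
    · exact e.symm
  have hfr' : ∀ k, k ≠ l → Fr T' x k := by
    intro k hk
    refine h.fr_of_ne (σ := Function.update (fun _ => true) l (!σ0 l))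
      (σ' := Function.update (fun _ => false) l (!σ0 l)) hT' ?_ ?_ ?_
    · apply hT'oct; simp
    · apply hT'oct; simp
    · rw [Function.update_of_ne hk, Function.update_of_ne hk]; simp
  have hl' : ¬ Fr T' x l := by
    intro hf
    apply hne.symm
    rw [e0]
    refine h.eq_ct_congr hT' e1 fun k hk => ?_
    by_cases hkl : k = l
    · subst hkl; exact absurd hf hk
    · exact absurd (hfr' k hkl) hk
  -- the octants in direction `σ0 l` belong to `T`
  have hToct : ∀ σ : Fin 3 → Bool, σ l = σ0 l → T = h.ct σ := by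
    intro σ hσ
    rcases hall σ with e | e
    · exact e.symm
    · exfalso
      apply hl'
      refine h.fr_of_ne (σ := σ) (σ' := Function.update (fun _ => true) l (!σ0 l)) hT' e.symm ?_ ?_
      · apply hT'oct; simp
      · rw [Function.update_self, hσ]; simp
  have hfr : ∀ k, k ≠ l → Fr T x k := by
    intro k hk
    refine h.fr_of_ne (σ := Function.update (fun _ => true) l (σ0 l))
      (σ' := Function.update (fun _ => false) l (σ0 l)) hT ?_ ?_ ?_
    · apply hToct; simp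
    · apply hToct; simp
    · rw [Function.update_of_ne hk, Function.update_of_ne hk]; simp
  refine ⟨l, ?_, fun k hk => ⟨hfr k hk, hfr' k hk⟩⟩
  have a := (h.eq_ct_iff hT).1 e0 l
  have b := (h.eq_ct_iff hT').1 (hT'oct (Function.update (fun _ => true) l (!σ0 l)) (by simp)) l
  rw [Function.update_self] at b
  unfold Fr at hl hl'
  by_cases hlo : lo T l = x l
  · right
    refine ⟨hlo, ?_⟩
    by_contra hhi
    have : lo T' l = x l := by
      by_contra h3
      exact hl' ⟨h3, hhi⟩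
    have h4 := b.1 this
    rw [a.1 hlo] at h4
    simp at h4
  · left
    have hhi : hi T l = x l := by
      by_contra h3
      exact hl ⟨hlo, h3⟩
    refine ⟨hhi, ?_⟩
    by_contra hlo'
    have : hi T' l = x l := by
      by_contra h3
      exact hl' ⟨hlo', h3⟩
    have h4 := b.2 this
    rw [a.2 hhi] at h4
    simp at h4

/-- a tile which is not free in two directions -/
theorem mem_K1_of_not_fr (h : Rad ρ o x r) {T : Tl ρ o} (hT : x ∈ cell T) {a b : Fin 3}
    (hab : a ≠ b) (ha : ¬ Fr T x a) (hb : ¬ Fr T x b) : x ∈ K1 ρ o := by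
  classical
  obtain ⟨σ, e⟩ := h.exists_eq_ct hT
  have h1 : T ≠ h.ct (Function.update σ a (!σ a)) := by
    intro e'
    exact ha (h.fr_of_ne hT e e' (by simp))
  have h2 : T ≠ h.ct (Function.update σ b (!σ b)) := by
    intro e'
    exact hb (h.fr_of_ne hT e e' (by simp))
  refine ⟨T, h.ct (Function.update σ a (!σ a)), h.ct (Function.update σ b (!σ b)), h1, h2, ?_,
    hT, h.mem_ct _, h.mem_ct _⟩
  intro e3
  set T' := h.ct (Function.update σ a (!σ a)) with hT'
  have hfa : Fr T' x a := by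
    refine h.fr_of_ne (h.mem_ct _) hT' e3 ?_
    rw [Function.update_self, Function.update_of_ne hab]; simp
  have hfb : Fr T' x b := by
    refine h.fr_of_ne (h.mem_ct _) hT' e3 ?_
    rw [Function.update_self, Function.update_of_ne hab.symm]; simp
  apply h1
  symm
  rw [e]
  refine h.eq_ct_congr (h.mem_ct _) hT' fun k hk => ?_
  by_cases hka : k = a
  · subst hka; exact absurd hfa hk
  · rw [Function.update_of_ne hka]

/-- a point of the one-skeleton has a tile which is not free in two directions -/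
theorem exists_not_fr_of_mem_K1 (h : Rad ρ o x r) (hK : x ∈ K1 ρ o) :
    ∃ (T : Tl ρ o) (a b : Fin 3), x ∈ cell T ∧ a ≠ b ∧ ¬ Fr T x a ∧ ¬ Fr T x b := by
  classical
  obtain ⟨T₁, T₂, T₃, h12, h13, h23, m1, m2, m3⟩ := hK
  by_contra hcon
  push Not at hcon
  -- every tile has a direction such that it is free in the others
  have key : ∀ T : Tl ρ o, x ∈ cell T → ∃ l s, ∀ σ : Fin 3 → Bool, σ l = s → T = h.ct σ := by
    intro T hT
    obtain ⟨σ, e⟩ := h.exists_eq_ct hT
    by_cases hf : ∃ l, ¬ Fr T x l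
    · obtain ⟨l, hl⟩ := hf
      refine ⟨l, σ l, fun σ' hσ' => h.eq_ct_congr hT e fun k hk => ?_⟩
      by_cases hkl : k = l
      · subst hkl; exact hσ'
      · exact absurd (hcon T l k hT (Ne.symm hkl) hl) hk
    · push Not at hf
      exact ⟨0, true, fun σ' _ => h.eq_ct_congr hT e fun k hk => absurd (hf k) hk⟩
  obtain ⟨l1, s1, k1⟩ := key T₁ m1
  obtain ⟨l2, s2, k2⟩ := key T₂ m2
  obtain ⟨l3, s3, k3⟩ := key T₃ m3
  have pair : ∀ {T T' : Tl ρ o} {l l' : Fin 3} {s s' : Bool}, T ≠ T' →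
      (∀ σ : Fin 3 → Bool, σ l = s → T = h.ct σ) → (∀ σ : Fin 3 → Bool, σ l' = s' → T' = h.ct σ) →
      l = l' ∧ s ≠ s' := by
    intro T T' l l' s s' hne k k'
    constructor
    · by_contra hll
      apply hne
      rw [k (Function.update (fun _ => s) l' s') (by rw [Function.update_of_ne hll]),
        ← k' (Function.update (fun _ => s) l' s') (by simp)]
    · intro hs
      apply hne
      rw [k (fun _ => s) rfl, ← k' (fun _ => s) hs]
  obtain ⟨-, n12⟩ := pair h12 k1 k2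
  obtain ⟨-, n13⟩ := pair h13 k1 k3
  obtain ⟨-, n23⟩ := pair h23 k2 k3
  revert n12 n13 n23
  cases s1 <;> cases s2 <;> cases s3 <;> simp

end Rad

/-- the one-skeleton in terms of the edges of the tiles -/
theorem mem_K1_iff (hΩ : IsOpen Ω) (hρ : SizeFn Ω ρ) {x : V} : x ∈ K1 ρ o ↔
    ∃ (T : Tl ρ o) (a b : Fin 3), x ∈ cell T ∧ a ≠ b ∧ (x a = lo T a ∨ x a = hi T a) ∧
      (x b = lo T b ∨ x b = hi T b) := by
  have hfr : ∀ (T : Tl ρ o) (k : Fin 3), ¬ Fr T x k ↔ (x k = lo T k ∨ x k = hi T k) := by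
    intro T k
    unfold Fr
    constructor
    · intro h
      by_cases h1 : lo T k = x k
      · exact Or.inl h1.symm
      · right
        by_contra h2
        exact h ⟨h1, fun h3 => h2 h3.symm⟩
    · rintro (h | h) h'
      · exact h'.1 h.symm
      · exact h'.2 h.symm
  constructor
  · intro hK
    have hxΩ : x ∈ Ω := by
      obtain ⟨T, _, _, _, _, _, hT, _⟩ := hK
      exact cell_subset hρ T hT
    obtain ⟨r, h, -⟩ := exists_rad (o := o) hΩ hρ hxΩ
    obtain ⟨T, a, b, hT, hab, ha, hb⟩ := h.exists_not_fr_of_mem_K1 hK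
    exact ⟨T, a, b, hT, hab, (hfr T a).1 ha, (hfr T b).1 hb⟩
  · rintro ⟨T, a, b, hT, hab, ha, hb⟩
    obtain ⟨r, h, -⟩ := exists_rad (o := o) hΩ hρ (cell_subset hρ T hT)
    exact h.mem_K1_of_not_fr hT hab ((hfr T a).2 ha) ((hfr T b).2 hb)

theorem K1_subset (hρ : SizeFn Ω ρ) : K1 ρ o ⊆ Ω := by
  rintro x ⟨T, _, _, _, _, _, hT, _⟩
  exact cell_subset hρ T hT

theorem coord_lo (T : Tl ρ o) (k : Fin 3) : lo T k = o k + T.1.2 k / 2 ^ T.1.1 := rfl
theorem coord_hi (T : Tl ρ o) (k : Fin 3) : hi T k = o k + (T.1.2 k + 1) / 2 ^ T.1.1 := rfl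

/-- a grid plane of level at most the level of the tile does not meet the interior -/
theorem not_fr_of_grid {T : Tl ρ o} {x : V} (hx : x ∈ cell T) {k : Fin 3} {n : ℕ} {z : ℤ}
    (hn : n ≤ T.1.1) (hz : x k = o k + z / 2 ^ n) : ¬ Fr T x k := by
  intro hf
  obtain ⟨h1, h2⟩ := hf.lt hx
  obtain ⟨d, hd⟩ := Nat.exists_eq_add_of_le hn
  rw [coord_lo, hd] at h1
  rw [coord_hi, hd] at h2
  rw [hz] at h1 h2
  have hp : (0:ℝ) < 2 ^ n := by positivity
  have hpd : (0:ℝ) < 2 ^ d := by positivity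
  have e : (2:ℝ) ^ (n + d) = 2 ^ n * 2 ^ d := pow_add _ _ _
  have f1 : (T.1.2 k : ℝ) / (2 ^ n * 2 ^ d) < z / 2 ^ n := by rw [← e]; linarith
  have f2 : (z : ℝ) / 2 ^ n < ((T.1.2 k : ℝ) + 1) / (2 ^ n * 2 ^ d) := by rw [← e]; linarith
  rw [div_lt_div_iff₀ (by positivity) hp] at f1
  rw [div_lt_div_iff₀ hp (by positivity)] at f2
  have g1 : (T.1.2 k : ℝ) < z * 2 ^ d := by
    have : (T.1.2 k : ℝ) * 2 ^ n < (z * 2 ^ d) * 2 ^ n := by nlinarith
    exact lt_of_mul_lt_mul_right this hp.le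
  have g2 : (z * 2 ^ d : ℝ) < T.1.2 k + 1 := by
    have : (z * 2 ^ d : ℝ) * 2 ^ n < ((T.1.2 k : ℝ) + 1) * 2 ^ n := by nlinarith
    exact lt_of_mul_lt_mul_right this hp.le
  have i1 : T.1.2 k < z * 2 ^ d := by exact_mod_cast g1
  have i2 : z * 2 ^ d < T.1.2 k + 1 := by exact_mod_cast g2
  omega

/-- the level of a tile from the size function -/
theorem level_le (hρ : SizeFn Ω ρ) {T : Tl ρ o} {x : V} (hx : x ∈ cell T) {n : ℕ}
    (h : ρ x ≤ 1 / 2 ^ n) : n ≤ T.1.1 := by
  by_contra hlt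
  push Not at hlt
  have h1 := (tile_bounds hρ T.2 hx).1
  have h2 : (1:ℝ) / 2 ^ n < 1 / 2 ^ T.1.1 := by
    apply one_div_lt_one_div_of_lt (by positivity)
    exact pow_lt_pow_right₀ (by norm_num) hlt
  linarith

/-- **`K` contains `G`**: points of the grid lines of level `n` are in the one-skeleton if the
size function is at most `2^{-n}` -/
theorem grid_subset_K1 (hΩ : IsOpen Ω) (hρ : SizeFn Ω ρ) {x : V} (hx : x ∈ Ω) {n : ℕ}
    (h : ρ x ≤ 1 / 2 ^ n) {a b : Fin 3} (hab : a ≠ b) {za zb : ℤ} (ha : x a = o a + za / 2 ^ n)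
    (hb : x b = o b + zb / 2 ^ n) : x ∈ K1 ρ o := by
  obtain ⟨r, hr, -⟩ := exists_rad (o := o) hΩ hρ hx
  obtain ⟨T, hT⟩ := mem_iUnion.1 (by rw [iUnion_cell hρ]; exact hx : x ∈ ⋃ T : Tl ρ o, cell T)
  have hn := level_le hρ hT h
  exact hr.mem_K1_of_not_fr hT hab (not_fr_of_grid hT hn ha) (not_fr_of_grid hT hn hb)

end P073.KW
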