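import Vale.Agent.P073.KW720.FaceRat
import Vale.Agent.P073.PLS.Defs

/-!
# P073, block KW: conversion to the tilings of block PLS
-/

open Set Metric Topology Filter

namespace P073.KW

open Vale.Agent.P073.St (V)
open P073.Net P073.PR720

variable {Ω : Set V} {o : V}

theorem rat_iff {o x : V} : Rat o x ↔ x ∈ PLS.Rat3 o := by
  constructor
  · intro h
    choose q hq using h
    exact ⟨q, hq⟩
  · rintro ⟨q, hq⟩ k
    exact ⟨q k, hq k⟩

namespace Tiling

variable (T : Tiling Ω o)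

/-- forget the rationality -/
def toPLS : PLS.Tiling Ω where
  I := T.I
  C := T.C
  cpt := T.compact
  cvx := T.convex
  int := T.int
  cover := T.cover
  lf := T.lf
  dis := T.disj

theorem toPLS_K1 : T.toPLS.K1 = T.K1 := rfl

theorem face2 (hΩ : IsOpen Ω) (hB : SpecBall2) {i j : T.I} (hij : i ≠ j)
    (hne : ((T.C i ∩ T.C j) \ T.K1).Nonempty) :
    ConBall 2 (T.C i ∩ T.C j) (T.C i ∩ T.C j ∩ T.K1) := by
  obtain ⟨x, hx, hxK⟩ := hne
  obtain ⟨n, c, hn, h1, h2, h3⟩ := specFace Ω o T hΩ i j hij ⟨x, hx, hxK⟩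
  rw [h3]
  refine hB o _ n c hn ((T.poly i).inter (T.poly j)) ((T.compact i).inter_right (T.isClosed j))
    (fun y hy => le_antisymm (h1 hy.1) (h2 hy.2)) ⟨x, hx, ?_⟩
  by_contra hcon
  push Not at hcon
  apply hxK
  have : x ∈ T.C i ∩ T.C j ∩ T.K1 := by
    rw [h3]
    refine ⟨hx, fun r hr => ?_⟩
    obtain ⟨z, hz, hzc, hzn⟩ := hcon r hr
    exact ⟨z, hz, hzc, hzn⟩
  exact this.2

theorem edgeAt (hΩ : IsOpen Ω) {x : V} (hx : x ∈ T.K1) :
    x ∈ PLS.Rat3 o ∨ ∃ e, T.toPLS.EdgeAt o x e := by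
  rcases T.rat_or_edge hΩ hx with h | h
  · exact Or.inl (rat_iff.1 h)
  · right
    obtain ⟨p, d, t₀, hd, hxt, r, hr, hb, hK, hmem, hinv⟩ := h
    set D : V := fun k => (d k : ℝ) with hDdef
    have hD0 : D ≠ 0 := by
      intro h
      apply hd
      funext k
      have := congrFun h k
      have h2 : (d k : ℝ) = 0 := this
      exact_mod_cast h2
    have hDpos : 0 < ‖D‖ := norm_pos_iff.2 hD0
    have hε : 0 < r / ‖D‖ := by positivity
    obtain ⟨q1, hq1, hq1'⟩ := exists_rat_btwn (show t₀ - r / ‖D‖ < t₀ by linarith)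
    obtain ⟨q2, hq2, hq2'⟩ := exists_rat_btwn (show t₀ < t₀ + r / ‖D‖ by linarith)
    have hlt : (0:ℝ) < q2 - q1 := by linarith
    let L : ℝ → V := fun t k => o k + p k + t * d k
    have hLx : ∀ t : ℝ, L t = x + (t - t₀) • D := by
      intro t
      funext k
      show o k + p k + t * d k = x k + (t - t₀) * d k
      rw [hxt k]; ring
    have hball : ∀ t : ℝ, |t - t₀| < r / ‖D‖ → L t ∈ ball x r := by
      intro t ht
      rw [hLx, mem_ball, dist_eq_norm, add_sub_cancel_left, norm_smul, Real.norm_eq_abs]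
      rwa [lt_div_iff₀ hDpos] at ht
    have hLK : ∀ t : ℝ, |t - t₀| < r / ‖D‖ → L t ∈ T.K1 := by
      intro t ht
      rw [hK _ (hball t ht)]
      refine ⟨t - t₀, fun k => ?_⟩
      show o k + p k + t * d k = _
      rw [hxt k]; ring
    have he : L q2 - L q1 = ((q2:ℝ) - q1) • D := by
      rw [hLx, hLx, add_sub_add_left_eq_sub, ← sub_smul]
      congr 1; ring
    refine ⟨L q2 - L q1, ?_, ⟨r, hr, fun y hy => ?_, fun i y hy τ hτ hyi => ?_⟩, L q1, ?_, L q2, ?_,
      (t₀ - q1) / (q2 - q1), ?_, ?_, rfl, ?_, ?_⟩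
    · rw [he]
      exact smul_ne_zero hlt.ne' hD0
    · show y ∈ T.K1 ↔ _
      rw [hK y hy]
      constructor
      · rintro ⟨τ, hτ⟩
        refine ⟨τ / (q2 - q1), ?_⟩
        rw [he, smul_smul, div_mul_cancel₀ _ hlt.ne']
        funext k
        exact hτ k
      · rintro ⟨τ, hτ⟩
        refine ⟨τ * (q2 - q1), fun k => ?_⟩
        rw [he, smul_smul] at hτ
        rw [hτ]; rfl
    · rw [he, smul_smul] at hτ ⊢
      exact (hinv i y hy _ hτ).1 hyi
    · exact rat_iff.1 fun k => ⟨p k + q1 * d k, by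
        show o k + p k + q1 * d k = _
        push_cast; ring⟩
    · exact rat_iff.1 fun k => ⟨p k + q2 * d k, by
        show o k + p k + q2 * d k = _
        push_cast; ring⟩
    · exact div_pos (by linarith) hlt
    · rw [div_lt_one hlt]; linarith
    · rw [he, smul_smul, div_mul_cancel₀ _ hlt.ne', hLx]
      module
    · rw [segment_eq_image']
      rintro _ ⟨s, hs, rfl⟩
      have e : L q1 + s • (L q2 - L q1) = L (q1 + s * (q2 - q1)) := by
        rw [he, hLx, hLx]
        module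
      show L q1 + s • (L q2 - L q1) ∈ T.K1
      rw [e]
      refine hLK _ ?_
      have h1 : 0 ≤ s * ((q2:ℝ) - q1) := mul_nonneg hs.1 hlt.le
      have h2 : s * ((q2:ℝ) - q1) ≤ 1 * ((q2:ℝ) - q1) := mul_le_mul_of_nonneg_right hs.2 hlt.le
      rw [abs_lt]
      constructor <;> linarith

/-- all properties wanted by block PLS -/
theorem toPLS_good (hΩ : IsOpen Ω) (hB2 : SpecBall2) (hB3 : SpecBall3) : T.toPLS.Good o where
  ball3 := fun i => hB3 o (T.C i) (T.poly i) (T.compact i) (T.int i)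
  face2 := fun _ _ h => T.face2 hΩ hB2 h.1 h.2
  faceRat := fun i j h => by
    obtain ⟨⟨s, hs, e⟩, u, hu, e'⟩ := T.faceRat hΩ h.1
    exact ⟨⟨s, fun a ha => rat_iff.1 (hs a ha), e⟩, u,
      fun q hq => ⟨rat_iff.1 (hu q hq).1, rat_iff.1 (hu q hq).2⟩, e'⟩
  edge := fun x hx => T.edgeAt hΩ hx

end Tiling

end P073.KW
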