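import Vale.Agent.P073.KW720.Exists2
import Vale.Agent.P073.KW720.ToPLS
import Vale.Agent.P073.PLS.Lip
import Vale.Agent.P073.H339.Ball23

/-!
# P073, block KW: the statement `PLS.SpecKW`
-/

open Set Metric Topology Filter

namespace P073.KW

open Vale.Agent.P073.St (V)
open P073.Net P073.PR720

/-- a size function below a given positive continuous function -/
theorem exists_sizeFn {Ω : Set V} (hΩ : IsOpen Ω) {ε : V → ℝ} (hc : ContinuousOn ε Ω)
    (hε : ∀ x ∈ Ω, 0 < ε x) : ∃ ρ, SizeFn Ω ρ ∧ ∀ x ∈ Ω, ρ x < ε x := by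
  classical
  obtain ⟨κ, hlip, -, -, hle, hκ⟩ := PLS.exists_lip Ω (fun x c => c < ε x) one_pos le_rfl
    (fun x c c' _ h1 h2 => h1.trans_lt h2) (by
      intro z hz
      have h1 : ∀ᶠ x in 𝓝[Ω] z, ε z / 2 < ε x :=
        (hc z hz).eventually_const_lt (by have := hε z hz; linarith)
      rw [eventually_nhdsWithin_iff, Metric.eventually_nhds_iff] at h1
      obtain ⟨δ, hδ, H⟩ := h1
      refine ⟨min δ (ε z / 2), lt_min hδ (half_pos (hε z hz)), fun x hx hxz => ?_⟩
      exact (min_le_right _ _).trans_lt (H (hxz.trans_le (min_le_left _ _)) hx))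
  by_cases hne : (Ωᶜ).Nonempty
  · refine ⟨fun x => min (κ x) (infDist x Ωᶜ), ⟨fun x y => ?_, fun x hx => ?_, fun x hx => ?_,
      fun x => ?_⟩, fun x hx => ?_⟩
    · have h1 := hlip x y
      rw [one_mul, abs_le, dist_eq_norm] at h1
      have h2 := infDist_le_infDist_add_dist (s := Ωᶜ) (x := x) (y := y)
      rw [dist_eq_norm] at h2
      rw [← min_add_add_right]
      refine min_le_min ?_ h2
      linarith [h1.2]
    · refine lt_min (hκ x hx).1 ?_
      exact (hΩ.isClosed_compl.notMem_iff_infDist_pos hne).1 (by simpa using hx)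
    · refine (min_le_right _ _).trans (le_of_eq ?_)
      exact infDist_zero_of_mem hx
    · exact (min_le_left _ _).trans (hle x)
    · exact (min_le_left _ _).trans_lt (hκ x hx).2
  · have hu : ∀ x, x ∈ Ω := by
      intro x
      by_contra hx
      exact hne ⟨x, hx⟩
    refine ⟨κ, ⟨fun x y => ?_, fun x hx => (hκ x hx).1, fun x hx => absurd (hu x) hx,
      hle⟩, fun x hx => (hκ x hx).2⟩
    have h1 := hlip x y
    rw [one_mul, abs_le, dist_eq_norm] at h1
    linarith [h1.2]

/-- **KW** -/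
theorem specKW : PLS.SpecKW := by
  intro Ω o G hΩ hG ε hc hε
  obtain ⟨ρ, hρ, hlt⟩ := exists_sizeFn hΩ hc hε
  obtain ⟨T, hGK, hsmall⟩ := specExists' Ω o G ρ hΩ hρ fun i =>
    ⟨rat_iff.2 (hG i).1, rat_iff.2 (hG i).2⟩
  refine ⟨T.toPLS, T.toPLS_good hΩ H339.specBall2 H339.specBall3, fun i x hx y hy => ?_, hGK⟩
  rw [dist_eq_norm]
  exact (hsmall i x hx y hy).trans_lt (hlt x (T.subset i hx))

end P073.KW
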