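import Vale.Agent.P073.KW720.Tiles

/-!
# P073, block KW: the Whitney tiling as a cell complex (part 2: local structure)
-/

open Set Metric Topology Filter

namespace P073.KW

open Vale.Agent.P073.St (V)
open P073.Net

/-- the index type of the tiles -/
def Tl (ρ : V → ℝ) (o : V) : Type := {p : ℕ × (Fin 3 → ℤ) // IsTile ρ o p.1 p.2}

variable {Ω : Set V} {ρ : V → ℝ} {o : V}

/-- lower end of the tile `T` in direction `k` -/
noncomputable def lo (T : Tl ρ o) (k : Fin 3) : ℝ := o k + T.1.2 k / 2 ^ T.1.1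

/-- upper end of the tile `T` in direction `k` -/
noncomputable def hi (T : Tl ρ o) (k : Fin 3) : ℝ := o k + (T.1.2 k + 1) / 2 ^ T.1.1

/-- the closed cube of the tile -/
def cell (T : Tl ρ o) : Set V := dyc o T.1.1 T.1.2

/-- the open cube of the tile -/
def ocell (T : Tl ρ o) : Set V := dyo o T.1.1 T.1.2

/-- the boundary of the tile -/
def bdc (T : Tl ρ o) : Set V := cell T \ ocell T

theorem mem_cell {T : Tl ρ o} {x : V} : x ∈ cell T ↔ ∀ k, lo T k ≤ x k ∧ x k ≤ hi T k := Iff.rfl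

theorem mem_ocell {T : Tl ρ o} {x : V} : x ∈ ocell T ↔ ∀ k, lo T k < x k ∧ x k < hi T k := Iff.rfl

theorem ocell_subset (T : Tl ρ o) : ocell T ⊆ cell T := dyo_subset_dyc _ _ _

theorem bdc_subset (T : Tl ρ o) : bdc T ⊆ cell T := sdiff_subset

theorem isClosed_cell (T : Tl ρ o) : IsClosed (cell T) := isClosed_dyc _ _ _

theorem isCompact_cell (T : Tl ρ o) : IsCompact (cell T) := isCompact_dyc _ _ _

theorem isOpen_ocell (T : Tl ρ o) : IsOpen (ocell T) := isOpen_dyo _ _ _

theorem isClosed_bdc (T : Tl ρ o) : IsClosed (bdc T) := (isClosed_cell T).sdiff (isOpen_ocell T)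

theorem lo_lt_hi (T : Tl ρ o) (k : Fin 3) : lo T k < hi T k := by
  have hm : (0:ℝ) < 2 ^ T.1.1 := by positivity
  have : (T.1.2 k : ℝ) / 2 ^ T.1.1 < (T.1.2 k + 1) / 2 ^ T.1.1 := by
    apply div_lt_div_of_pos_right _ hm; linarith
  unfold lo hi
  linarith

theorem cell_subset (hρ : SizeFn Ω ρ) (T : Tl ρ o) : cell T ⊆ Ω := tile_subset hρ T.2

theorem iUnion_cell (hρ : SizeFn Ω ρ) : ⋃ T : Tl ρ o, cell T = Ω := by
  apply Subset.antisymm (iUnion_subset fun T => cell_subset hρ T)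
  intro x hx
  obtain ⟨m, z, h, hm⟩ := exists_tile (v := o) hρ hx
  exact mem_iUnion.2 ⟨⟨(m, z), h⟩, hm⟩

theorem tl_ext {T T' : Tl ρ o} (h : (ocell T ∩ cell T').Nonempty) : T = T' := by
  by_contra hne
  have hne' : (T.1.1, T.1.2) ≠ (T'.1.1, T'.1.2) := fun h => hne (Subtype.ext h)
  exact (disjoint_dyo_dyc T.2 T'.2 hne').ne_of_mem h.some_mem.1 h.some_mem.2 rfl

theorem cell_inter_subset {T T' : Tl ρ o} (h : T ≠ T') : cell T ∩ cell T' ⊆ bdc T := by
  rintro x ⟨h1, h2⟩
  exact ⟨h1, fun h3 => h (tl_ext ⟨x, h3, h2⟩)⟩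

theorem finite_cells (hρ : SizeFn Ω ρ) {K : Set V} (hK : K ⊆ Ω) (hKc : IsCompact K) :
    {T : Tl ρ o | (cell T ∩ K).Nonempty}.Finite := by
  have := (finite_tiles (v := o) hρ hK hKc).preimage
    (f := (Subtype.val : Tl ρ o → ℕ × (Fin 3 → ℤ))) Subtype.val_injective.injOn
  exact this.subset fun T hT => ⟨T.2, hT⟩

theorem interior_nonempty_of_mem {T : Tl ρ o} {x : V} (hx : x ∈ cell T) {U : Set V}
    (hU : U ∈ 𝓝 x) : (U ∩ ocell T).Nonempty := open_meets_dyo hx hU

/-- **local structure**: all tiles which meet a small ball contain its centre, and the ball does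
not see the faces which do not contain the centre -/
theorem exists_radius (hΩ : IsOpen Ω) (hρ : SizeFn Ω ρ) {x : V} (hx : x ∈ Ω) :
    ∃ r > 0, ball x r ⊆ Ω ∧ ∀ T : Tl ρ o, (cell T ∩ ball x r).Nonempty → x ∈ cell T ∧
      ∀ k, (lo T k = x k ∨ lo T k ≤ x k - r) ∧ (hi T k = x k ∨ x k + r ≤ hi T k) := by
  classical
  obtain ⟨R, hR, hRΩ⟩ := Metric.isOpen_iff.1 hΩ x hx
  have hc : closedBall x (R / 2) ⊆ Ω := (closedBall_subset_ball (by linarith)).trans hRΩ
  have hfin := finite_cells (o := o) hρ hc (isCompact_closedBall x (R / 2))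
  have key : ∀ T : Tl ρ o, ∀ᶠ r in 𝓝[>] (0:ℝ), (cell T ∩ ball x r).Nonempty → x ∈ cell T ∧
      ∀ k, (lo T k = x k ∨ lo T k ≤ x k - r) ∧ (hi T k = x k ∨ x k + r ≤ hi T k) := by
    intro T
    by_cases hxT : x ∈ cell T
    · have h1 : ∀ k, ∀ᶠ r in 𝓝[>] (0:ℝ),
          (lo T k = x k ∨ lo T k ≤ x k - r) ∧ (hi T k = x k ∨ x k + r ≤ hi T k) := by
        intro k
        have hk := mem_cell.1 hxT k
        have e1 : ∀ᶠ r in 𝓝[>] (0:ℝ), (lo T k = x k ∨ lo T k ≤ x k - r) := by
          rcases hk.1.eq_or_lt with h | h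
          · exact Eventually.of_forall fun _ => Or.inl h
          · filter_upwards [Ioo_mem_nhdsGT (sub_pos.2 h)] with r hr
            right; linarith [hr.2]
        have e2 : ∀ᶠ r in 𝓝[>] (0:ℝ), (hi T k = x k ∨ x k + r ≤ hi T k) := by
          rcases hk.2.eq_or_lt with h | h
          · exact Eventually.of_forall fun _ => Or.inl h.symm
          · filter_upwards [Ioo_mem_nhdsGT (sub_pos.2 h)] with r hr
            right; linarith [hr.2]
        exact e1.and e2
      filter_upwards [eventually_all.2 h1] with r hr _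
      exact ⟨hxT, hr⟩
    · obtain ⟨ε, hε, hb⟩ := Metric.isOpen_iff.1 (isClosed_cell T).isOpen_compl x hxT
      filter_upwards [Ioo_mem_nhdsGT hε] with r hr
      rintro ⟨y, hy, hyr⟩
      exact absurd hy (hb (ball_subset_ball hr.2.le hyr))
  have hall : ∀ᶠ r in 𝓝[>] (0:ℝ), ∀ T ∈ {T : Tl ρ o | (cell T ∩ closedBall x (R / 2)).Nonempty},
      (cell T ∩ ball x r).Nonempty → x ∈ cell T ∧
      ∀ k, (lo T k = x k ∨ lo T k ≤ x k - r) ∧ (hi T k = x k ∨ x k + r ≤ hi T k) :=
    (hfin.eventually_all (l := 𝓝[>] (0:ℝ))).2 fun T _ => key T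
  obtain ⟨r, hr, hr0⟩ := (hall.and (Ioo_mem_nhdsGT (half_pos hR))).exists
  refine ⟨r, hr0.1, (ball_subset_closedBall.trans
    (closedBall_subset_closedBall hr0.2.le)).trans hc, fun T hT => ?_⟩
  exact hr T (hT.mono (inter_subset_inter_right _ (ball_subset_closedBall.trans
    (closedBall_subset_closedBall hr0.2.le)))) hT

/-- the local description of the tiles -/
structure Rad (ρ : V → ℝ) (o x : V) (r : ℝ) : Prop where
  pos : 0 < r
  cov : ball x r ⊆ ⋃ T : Tl ρ o, cell T
  mem : ∀ T : Tl ρ o, (cell T ∩ ball x r).Nonempty → x ∈ cell T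
  low : ∀ T : Tl ρ o, x ∈ cell T → ∀ k, lo T k = x k ∨ lo T k ≤ x k - r
  upp : ∀ T : Tl ρ o, x ∈ cell T → ∀ k, hi T k = x k ∨ x k + r ≤ hi T k

theorem exists_rad (hΩ : IsOpen Ω) (hρ : SizeFn Ω ρ) {x : V} (hx : x ∈ Ω) :
    ∃ r, Rad ρ o x r ∧ ball x r ⊆ Ω := by
  obtain ⟨r, hr, hb, h⟩ := exists_radius (o := o) hΩ hρ hx
  refine ⟨r, ⟨hr, by rw [iUnion_cell hρ]; exact hb, fun T hT => (h T hT).1, fun T hT k => ?_,
    fun T hT k => ?_⟩, hb⟩
  · exact ((h T ⟨x, hT, mem_ball_self hr⟩).2 k).1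
  · exact ((h T ⟨x, hT, mem_ball_self hr⟩).2 k).2

theorem coord_ball {x y : V} {r : ℝ} (h : y ∈ ball x r) (k : Fin 3) :
    x k - r < y k ∧ y k < x k + r := by
  have h1 := (norm_le_pi_norm (y - x) k).trans_lt (by rwa [mem_ball, dist_eq_norm] at h)
  rw [Pi.sub_apply, Real.norm_eq_abs, abs_lt] at h1
  constructor <;> linarith

theorem ball_of_coord {x y : V} {r : ℝ} (hr : 0 < r) (h : ∀ k, |y k - x k| < r) :
    y ∈ ball x r := by
  rw [mem_ball, dist_eq_norm, pi_norm_lt_iff hr]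
  intro k
  rw [Pi.sub_apply, Real.norm_eq_abs]
  exact h k

namespace Rad

variable {x : V} {r : ℝ}

theorem mono (h : Rad ρ o x r) {r' : ℝ} (h0 : 0 < r') (hr : r' ≤ r) : Rad ρ o x r' where
  pos := h0
  cov := (ball_subset_ball hr).trans h.cov
  mem := fun T hT => h.mem T (hT.mono (inter_subset_inter_right _ (ball_subset_ball hr)))
  low := fun T hT k => (h.low T hT k).imp id fun h' => by linarith
  upp := fun T hT k => (h.upp T hT k).imp id fun h' => by linarith

theorem mem_cell_iff (h : Rad ρ o x r) {T : Tl ρ o} (hT : x ∈ cell T) {y : V}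
    (hy : y ∈ ball x r) : y ∈ cell T ↔
      ∀ k, (lo T k = x k → x k ≤ y k) ∧ (hi T k = x k → y k ≤ x k) := by
  rw [mem_cell]
  refine forall_congr' fun k => ?_
  have hb := coord_ball hy k
  have h1 := h.low T hT k
  have h2 := h.upp T hT k
  constructor
  · rintro ⟨a, b⟩
    exact ⟨fun e => e ▸ a, fun e => e ▸ b⟩
  · rintro ⟨a, b⟩
    constructor
    · rcases h1 with h1 | h1
      · rw [h1]; exact a h1
      · linarith [hb.1]
    · rcases h2 with h2 | h2
      · rw [h2]; exact b h2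
      · linarith [hb.2]

theorem mem_ocell_iff (h : Rad ρ o x r) {T : Tl ρ o} (hT : x ∈ cell T) {y : V}
    (hy : y ∈ ball x r) : y ∈ ocell T ↔
      ∀ k, (lo T k = x k → x k < y k) ∧ (hi T k = x k → y k < x k) := by
  rw [mem_ocell]
  refine forall_congr' fun k => ?_
  have hb := coord_ball hy k
  have h1 := h.low T hT k
  have h2 := h.upp T hT k
  constructor
  · rintro ⟨a, b⟩
    exact ⟨fun e => e ▸ a, fun e => e ▸ b⟩
  · rintro ⟨a, b⟩
    constructor
    · rcases h1 with h1 | h1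
      · rw [h1]; exact a h1
      · linarith [hb.1]
    · rcases h2 with h2 | h2
      · rw [h2]; exact b h2
      · linarith [hb.2]

end Rad

/-- the sign of a Boolean -/
def sg (b : Bool) : ℝ := if b then 1 else -1

@[simp] theorem sg_true : sg true = 1 := rfl
@[simp] theorem sg_false : sg false = -1 := rfl

/-- the open octant with direction `σ` at `x` -/
def oct (x : V) (σ : Fin 3 → Bool) : Set V := {y | ∀ k, 0 < sg (σ k) * (y k - x k)}

theorem mem_oct {x y : V} {σ : Fin 3 → Bool} : y ∈ oct x σ ↔ ∀ k, 0 < sg (σ k) * (y k - x k) :=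
  Iff.rfl

/-- a point in the octant -/
theorem oct_inter_ball (x : V) (σ : Fin 3 → Bool) {r : ℝ} (hr : 0 < r) :
    (oct x σ ∩ ball x r).Nonempty := by
  refine ⟨fun k => x k + sg (σ k) * (r / 2), fun k => ?_, ball_of_coord hr fun k => ?_⟩
  · show 0 < sg (σ k) * (x k + sg (σ k) * (r / 2) - x k)
    cases σ k <;> simp <;> linarith
  · show |x k + sg (σ k) * (r / 2) - x k| < r
    have e : x k + sg (σ k) * (r / 2) - x k = sg (σ k) * (r / 2) := by ring
    rw [e, abs_mul, abs_of_pos (half_pos hr)]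
    cases σ k <;> simp <;> linarith

namespace Rad

variable {x : V} {r : ℝ}

/-- a tile which contains a point of the small open octant contains the small open octant in its
interior -/
theorem oct_subset (h : Rad ρ o x r) {σ : Fin 3 → Bool} {T : Tl ρ o} {y : V}
    (hy : y ∈ oct x σ ∩ ball x r) (hyT : y ∈ cell T) : oct x σ ∩ ball x r ⊆ ocell T := by
  have hT := h.mem T ⟨y, hyT, hy.2⟩
  have h1 := (h.mem_cell_iff hT hy.2).1 hyT
  intro w hw
  rw [h.mem_ocell_iff hT hw.2]
  intro k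
  have a := hy.1 k
  have b := hw.1 k
  constructor
  · intro e
    have c := (h1 k).1 e
    revert a b
    cases σ k
    · simp only [sg_false]; intro a b; linarith
    · simp only [sg_true]; intro a b; linarith
  · intro e
    have c := (h1 k).2 e
    revert a b
    cases σ k
    · simp only [sg_false]; intro a b; linarith
    · simp only [sg_true]; intro a b; linarith

theorem exists_oct (h : Rad ρ o x r) (σ : Fin 3 → Bool) :
    ∃ T : Tl ρ o, x ∈ cell T ∧ oct x σ ∩ ball x r ⊆ ocell T := by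
  obtain ⟨y, hy⟩ := oct_inter_ball x σ h.pos
  obtain ⟨T, hT⟩ := mem_iUnion.1 (h.cov hy.2)
  exact ⟨T, h.mem T ⟨y, hT, hy.2⟩, h.oct_subset hy hT⟩

/-- the tile of the octant `σ` at `x` -/
noncomputable def ct (h : Rad ρ o x r) (σ : Fin 3 → Bool) : Tl ρ o := (h.exists_oct σ).choose

theorem mem_ct (h : Rad ρ o x r) (σ : Fin 3 → Bool) : x ∈ cell (h.ct σ) :=
  (h.exists_oct σ).choose_spec.1

theorem ct_subset (h : Rad ρ o x r) (σ : Fin 3 → Bool) : oct x σ ∩ ball x r ⊆ ocell (h.ct σ) :=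
  (h.exists_oct σ).choose_spec.2

theorem eq_ct (h : Rad ρ o x r) {σ : Fin 3 → Bool} {T : Tl ρ o} {y : V}
    (hy : y ∈ oct x σ ∩ ball x r) (hyT : y ∈ cell T) : T = h.ct σ :=
  (tl_ext ⟨y, h.ct_subset σ hy, hyT⟩).symm

/-- the octant `σ` belongs to the tile `T` -/
theorem eq_ct_iff (h : Rad ρ o x r) {σ : Fin 3 → Bool} {T : Tl ρ o} (hT : x ∈ cell T) :
    T = h.ct σ ↔ ∀ k, (lo T k = x k → σ k = true) ∧ (hi T k = x k → σ k = false) := by
  obtain ⟨y, hy⟩ := oct_inter_ball x σ h.pos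
  constructor
  · intro e k
    have hyT : y ∈ ocell T := e ▸ h.ct_subset σ hy
    have := (h.mem_ocell_iff hT hy.2).1 hyT k
    have a := hy.1 k
    constructor
    · intro e
      have := this.1 e
      revert a
      cases σ k
      · simp only [sg_false]; intro a; linarith
      · simp
    · intro e
      have := this.2 e
      revert a
      cases σ k
      · simp
      · simp only [sg_true]; intro a; linarith
  · intro hk
    refine h.eq_ct hy ((h.mem_cell_iff hT hy.2).2 fun k => ?_)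
    have a := hy.1 k
    constructor
    · intro e
      rw [(hk k).1 e, sg_true] at a; linarith
    · intro e
      rw [(hk k).2 e, sg_false] at a; linarith

/-- every tile which meets the ball is the tile of an octant -/
theorem exists_eq_ct (h : Rad ρ o x r) {T : Tl ρ o} (hT : x ∈ cell T) : ∃ σ, T = h.ct σ := by
  obtain ⟨y, hy, hyT⟩ := interior_nonempty_of_mem hT (ball_mem_nhds x h.pos)
  classical
  have h1 := (h.mem_ocell_iff hT hy).1 hyT
  refine ⟨fun k => decide (hi T k ≠ x k), (h.eq_ct_iff hT).2 fun k => ?_⟩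
  constructor
  · intro e
    simp only [decide_eq_true_eq]
    intro e'
    have := (h1 k).1 e
    have := (h1 k).2 e'
    linarith
  · intro e
    simp [e]

end Rad

end P073.KW
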