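import Vale.Agent.P073.KW720.Edge2

/-!
# P073, block KW: rational convex tilings (vertices are rational, faces are rational polygons)
-/

open Set Metric Topology Filter

namespace P073.KW

open Vale.Agent.P073.St (V)
open P073.Net P073.PR720

variable {Ω : Set V} {o : V}

namespace Tiling

variable (T : Tiling Ω o)

/-- **points of the one-skeleton**: `x` is rational, or in the interior of a rational edge -/
theorem rat_or_edge (hΩ : IsOpen Ω) {x : V} (hx : x ∈ T.K1) : Rat o x ∨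
    ∃ (p d : Fin 3 → ℚ) (t₀ : ℝ), d ≠ 0 ∧ (∀ k, x k = o k + p k + t₀ * d k) ∧
      ∃ r > 0, ball x r ⊆ Ω ∧ (∀ y ∈ ball x r, (y ∈ T.K1 ↔ ∃ τ : ℝ, ∀ k, y k = x k + τ * d k)) ∧
        (∀ i, (T.C i ∩ ball x r).Nonempty → x ∈ T.C i) ∧
        ∀ i, ∀ y ∈ ball x r, ∀ t : ℝ, y + t • (fun k => (d k : ℝ) : V) ∈ ball x r →
          (y ∈ T.C i ↔ y + t • (fun k => (d k : ℝ) : V) ∈ T.C i) := by
  obtain ⟨i, j, k, hij, hik, hjk, hi, hj, hk⟩ := hx
  have hxΩ : x ∈ Ω := T.subset i hi
  obtain ⟨r, hr, hb, H, hH, hmem, hact⟩ := T.exists_active hΩ hxΩ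
  obtain ⟨a, b, g, g', ha, hb', hg, hg', hgx, hgx', hcr⟩ := T.exists_pair hr hH hact hij hik hjk
    hi hj hk
  obtain ⟨p, d, hd, hline, hgd, hgd'⟩ := exists_line o hcr
  obtain ⟨t₀, ht₀⟩ := hline x hgx hgx'
  set D : V := fun k => (d k : ℝ) with hDdef
  by_cases hall : ∀ i, x ∈ T.C i → ∀ h ∈ H i, rf o h x = 0 → rl h D = 0
  · right
    have hinv : ∀ i, ∀ y ∈ ball x r, ∀ t : ℝ, y + t • D ∈ ball x r →
        (y ∈ T.C i ↔ y + t • D ∈ T.C i) := by
      intro i y hy t ht
      by_cases hi : x ∈ T.C i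
      · have hcons : ∀ h ∈ H i, (rf o h y ≤ 0 ↔ rf o h (y + t • D) ≤ 0) := by
          intro h hh
          rcases hact i hi h hh with h1 | h1
          · rw [rf_add_smul, hall i hi h hh h1, mul_zero, add_zero]
          · exact iff_of_true (h1 y hy).le (h1 _ ht).le
        rw [hH i]
        constructor
        · intro h h' hh; exact (hcons h' hh).1 (h h' hh)
        · intro h h' hh; exact (hcons h' hh).2 (h h' hh)
      · constructor
        · intro h; exact absurd (hmem i ⟨y, h, hy⟩) hi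
        · intro h; exact absurd (hmem i ⟨_, h, ht⟩) hi
    have hD0 : D ≠ 0 := by
      intro h
      apply hd
      funext k
      have := congrFun h k
      have h2 : (d k : ℝ) = 0 := this
      exact_mod_cast h2
    have hInv : T.Inv x D := ⟨r, hr, hinv⟩
    refine ⟨p, d, t₀, hd, ht₀, r, hr, hb, fun y hy => ⟨?_, ?_⟩, hmem, hinv⟩
    · rintro ⟨i', j', k', h1, h2, h3, m1, m2, m3⟩
      have hxm : x ∈ T.C i' ∩ T.C j' ∩ T.C k' :=
        ⟨⟨hmem _ ⟨y, m1, hy⟩, hmem _ ⟨y, m2, hy⟩⟩, hmem _ ⟨y, m3, hy⟩⟩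
      have hym : y ∈ T.C i' ∩ T.C j' ∩ T.C k' := ⟨⟨m1, m2⟩, m3⟩
      obtain ⟨t, ht⟩ := hline y (T.triple_subset hD0 hInv hH h1 h2 h3 hxm ha hg hgx hym)
        (T.triple_subset hD0 hInv hH h1 h2 h3 hxm hb' hg' hgx' hym)
      exact ⟨t - t₀, fun k => by rw [ht k, ht₀ k]; ring⟩
    · rintro ⟨τ, hτ⟩
      have e : y = x + τ • D := by
        funext k
        rw [hτ k]; rfl
      rw [e] at hy ⊢
      exact ⟨i, j, k, hij, hik, hjk, (hinv i x (mem_ball_self hr) τ hy).1 hi,
        (hinv j x (mem_ball_self hr) τ hy).1 hj, (hinv k x (mem_ball_self hr) τ hy).1 hk⟩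
  · left
    push Not at hall
    obtain ⟨l, -, h, -, hhx, hne⟩ := hall
    have e1 : rl h D = ((∑ k, h.1 k * d k : ℚ) : ℝ) := by
      unfold rl
      push_cast
      rfl
    have e2 : t₀ * rl h D = ((h.2 - ∑ k, h.1 k * p k : ℚ) : ℝ) := by
      have h1 : rf o h x = 0 := hhx
      unfold rf at h1
      have h2 : ∀ k, (h.1 k : ℝ) * (x k - o k) = (h.1 k : ℝ) * p k + t₀ * ((h.1 k : ℝ) * D k) := by
        intro k
        rw [ht₀ k]
        show _ = _ + t₀ * ((h.1 k : ℝ) * d k)
        ring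
      rw [Finset.sum_congr rfl fun k _ => h2 k, Finset.sum_add_distrib, ← Finset.mul_sum] at h1
      unfold rl
      push_cast
      linarith
    have hne' : ((∑ k, h.1 k * d k : ℚ) : ℝ) ≠ 0 := by rw [← e1]; exact hne
    have ht : t₀ = ((h.2 - ∑ k, h.1 k * p k) / (∑ k, h.1 k * d k) : ℚ) := by
      rw [e1] at e2
      push_cast at e2 hne' ⊢
      field_simp
      linarith
    intro k
    refine ⟨p k + ((h.2 - ∑ k, h.1 k * p k) / (∑ k, h.1 k * d k)) * d k, ?_⟩
    rw [ht₀ k, ht]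
    push_cast
    ring

/-- extreme points of a triple intersection are rational -/
theorem rat_of_extreme (hΩ : IsOpen Ω) {i j k : T.I} (hij : i ≠ j) (hik : i ≠ k) (hjk : j ≠ k)
    {x : V} (hx : x ∈ (T.C i ∩ T.C j ∩ T.C k).extremePoints ℝ) : Rat o x := by
  have hxm := hx.1
  rcases T.rat_or_edge hΩ ⟨i, j, k, hij, hik, hjk, hxm.1.1, hxm.1.2, hxm.2⟩ with h | h
  · exact h
  · exfalso
    obtain ⟨p, d, t₀, hd, -, r, hr, -, -, -, hinv⟩ := h
    set D : V := fun k => (d k : ℝ) with hDdef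
    have hD0 : D ≠ 0 := by
      intro h
      apply hd
      funext k
      have := congrFun h k
      have h2 : (d k : ℝ) = 0 := this
      exact_mod_cast h2
    have hDpos : 0 < ‖D‖ := norm_pos_iff.2 hD0
    set s : ℝ := r / (2 * ‖D‖) with hs
    have hs0 : 0 < s := by positivity
    have hsD : s * ‖D‖ < r := by
      rw [hs]; field_simp; linarith
    have h1 : x + s • D ∈ ball x r := by
      rw [mem_ball, dist_eq_norm, add_sub_cancel_left, norm_smul, Real.norm_of_nonneg hs0.le]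
      exact hsD
    have h2 : x + (-s) • D ∈ ball x r := by
      rw [mem_ball, dist_eq_norm, add_sub_cancel_left, norm_smul, Real.norm_eq_abs, abs_neg,
        abs_of_pos hs0]
      exact hsD
    have m1 : x + s • D ∈ T.C i ∩ T.C j ∩ T.C k :=
      ⟨⟨(hinv i x (mem_ball_self hr) s h1).1 hxm.1.1, (hinv j x (mem_ball_self hr) s h1).1 hxm.1.2⟩,
        (hinv k x (mem_ball_self hr) s h1).1 hxm.2⟩
    have m2 : x + (-s) • D ∈ T.C i ∩ T.C j ∩ T.C k :=
      ⟨⟨(hinv i x (mem_ball_self hr) _ h2).1 hxm.1.1, (hinv j x (mem_ball_self hr) _ h2).1 hxm.1.2⟩,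
        (hinv k x (mem_ball_self hr) _ h2).1 hxm.2⟩
    have h3 : x ∈ openSegment ℝ (x + s • D) (x + (-s) • D) := by
      refine ⟨1 / 2, 1 / 2, by norm_num, by norm_num, by norm_num, ?_⟩
      module
    have h4 := hx.2 m1 m2 h3
    have h5 : s • D = 0 := add_eq_left.1 h4
    rcases smul_eq_zero.1 h5 with h6 | h6
    · exact hs0.ne' h6
    · exact hD0 h6

/-- a triple intersection lies on a line -/
theorem triple_line (hΩ : IsOpen Ω) {i j k : T.I} (hij : i ≠ j) (hik : i ≠ k) (hjk : j ≠ k) :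
    ∃ a b : V, T.C i ∩ T.C j ∩ T.C k ⊆ {y | ∃ t : ℝ, y = a + t • b} := by
  by_cases hsub : (T.C i ∩ T.C j ∩ T.C k) ⊆ T.K0
  · -- the intersection is countable and convex, so it has at most one point
    rcases (T.C i ∩ T.C j ∩ T.C k).eq_empty_or_nonempty with he | ⟨x, hx⟩
    · exact ⟨0, 0, by rw [he]; exact empty_subset _⟩
    · refine ⟨x, 0, fun y hy => ⟨0, ?_⟩⟩
      rw [smul_zero, add_zero]
      by_contra hne
      have hconv : Convex ℝ (T.C i ∩ T.C j ∩ T.C k) :=
        ((T.convex i).inter (T.convex j)).inter (T.convex k)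
      have hseg : segment ℝ x y ⊆ T.K0 := (hconv.segment_subset hx hy).trans hsub
      have hcount : (segment ℝ x y).Countable := (T.countable_K0 hΩ).mono hseg
      -- a non-degenerate segment is uncountable
      obtain ⟨k0, hk0⟩ : ∃ k0, y k0 ≠ x k0 := by
        by_contra hcon
        push Not at hcon
        exact hne (funext hcon)
      have hinj : InjOn (fun t : ℝ => x + t • (y - x)) (Icc 0 1) := by
        intro s _ t _ hst
        have h1 := congrFun hst k0
        simp only [Pi.add_apply, Pi.smul_apply, Pi.sub_apply, smul_eq_mul] at h1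
        have h2 : (s - t) * (y k0 - x k0) = 0 := by linarith
        rcases mul_eq_zero.1 h2 with h3 | h3
        · linarith
        · exact absurd (by linarith : y k0 = x k0) hk0
      rw [segment_eq_image'] at hcount
      have h4 : (Icc (0:ℝ) 1).Countable := Set.countable_of_injective_of_countable_image hinj hcount
      exact (Cardinal.Real.Icc_countable_iff.1 h4) |> fun h => by linarith
  · rw [not_subset] at hsub
    obtain ⟨x, hx, hxK⟩ := hsub
    obtain ⟨a, b, -, -, -, -, h, -, -⟩ := specEdge Ω o T hΩ i j k hij hik hjk x hx hxK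
    refine ⟨a, b - a, h.trans ?_⟩
    rw [segment_eq_image']
    rintro _ ⟨t, -, rfl⟩
    exact ⟨t, rfl⟩

end Tiling

end P073.KW
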