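import Vale.Agent.P073.KW720.Tiling
import Vale.Agent.P073.ConicalBody

/-!
# P073, block KW: rational convex tilings (structure off the one-skeleton)
-/

open Set Metric Topology Filter

namespace P073.KW

open Vale.Agent.P073.St (V)
open P073.Net P073.PR720

variable {Ω : Set V} {o : V}

theorem continuous_rf (o : V) (h : (Fin 3 → ℚ) × ℚ) : Continuous (rf o h) := by
  unfold rf
  fun_prop

theorem rf_add (o : V) (h : (Fin 3 → ℚ) × ℚ) (x v : V) :
    rf o h (x + v) = rf o h x + ∑ k, (h.1 k : ℝ) * v k := by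
  unfold rf
  rw [sub_add_eq_add_sub, ← Finset.sum_add_distrib]
  congr 1
  refine Finset.sum_congr rfl fun k _ => ?_
  rw [Pi.add_apply]; ring

theorem rf_line (o : V) (h : (Fin 3 → ℚ) × ℚ) (x y : V) (t : ℝ) :
    rf o h (x + t • (y - x)) = (1 - t) * rf o h x + t * rf o h y := by
  unfold rf
  have : ∀ k, (h.1 k : ℝ) * ((x + t • (y - x)) k - o k) =
      (1 - t) * ((h.1 k : ℝ) * (x k - o k)) + t * ((h.1 k : ℝ) * (y k - o k)) := by
    intro k
    simp only [Pi.add_apply, Pi.smul_apply, Pi.sub_apply, smul_eq_mul]; ring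
  rw [Finset.sum_congr rfl fun k _ => this k, Finset.sum_add_distrib, ← Finset.mul_sum,
    ← Finset.mul_sum]
  ring

theorem convex_rf (o : V) (h : (Fin 3 → ℚ) × ℚ) : Convex ℝ {x | rf o h x ≤ 0} := by
  intro x hx y hy a b ha hb hab
  have e : a • x + b • y = x + b • (y - x) := by
    have : a = 1 - b := by linarith
    rw [this]; module
  rw [e]
  show rf o h (x + b • (y - x)) ≤ 0
  rw [rf_line]
  have hx' : rf o h x ≤ 0 := hx
  have hy' : rf o h y ≤ 0 := hy
  have h1 : (1 - b) * rf o h x ≤ 0 := mul_nonpos_of_nonneg_of_nonpos (by linarith) hx'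
  have h2 : b * rf o h y ≤ 0 := mul_nonpos_of_nonneg_of_nonpos hb hy'
  linarith

theorem RatPoly.convex {C : Set V} (h : RatPoly o C) : Convex ℝ C := by
  obtain ⟨H, rfl⟩ := h
  have : {x : V | ∀ h ∈ H, rf o h x ≤ 0} = ⋂ h ∈ H, {x | rf o h x ≤ 0} := by
    ext x; simp
  rw [this]
  exact convex_iInter fun h => convex_iInter fun _ => convex_rf o h

theorem RatPoly.isClosed {C : Set V} (h : RatPoly o C) : IsClosed C := by
  obtain ⟨H, rfl⟩ := h
  have : {x : V | ∀ h ∈ H, rf o h x ≤ 0} = ⋂ h ∈ H, {x | rf o h x ≤ 0} := by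
    ext x; simp
  rw [this]
  exact isClosed_biInter fun h _ => isClosed_le (continuous_rf o h) continuous_const

theorem RatPoly.inter {C D : Set V} (h : RatPoly o C) (h' : RatPoly o D) : RatPoly o (C ∩ D) := by
  classical
  obtain ⟨H, rfl⟩ := h
  obtain ⟨H', rfl⟩ := h'
  refine ⟨H ∪ H', ?_⟩
  ext x
  simp only [mem_inter_iff, mem_ofPred_eq, Finset.mem_union]
  constructor
  · rintro ⟨h1, h2⟩ h (h3 | h3)
    · exact h1 h h3
    · exact h2 h h3
  · intro h1
    exact ⟨fun h h3 => h1 h (Or.inl h3), fun h h3 => h1 h (Or.inr h3)⟩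

namespace Tiling

variable (T : Tiling Ω o)

theorem convex (i : T.I) : Convex ℝ (T.C i) := (T.poly i).convex

theorem isClosed (i : T.I) : IsClosed (T.C i) := (T.poly i).isClosed

theorem closure_interior (i : T.I) : closure (interior (T.C i)) = T.C i := by
  rw [(T.convex i).closure_interior_eq_closure_of_nonempty_interior (T.int i),
    (T.isClosed i).closure_eq]

theorem subset (i : T.I) : T.C i ⊆ Ω := by
  have := subset_iUnion T.C i
  rwa [T.cover] at this

theorem exists_mem {x : V} (hx : x ∈ Ω) : ∃ i, x ∈ T.C i := by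
  rw [← T.cover] at hx
  exact mem_iUnion.1 hx

/-- open sets meeting a cell meet its interior -/
theorem open_inter {i : T.I} {x : V} (hx : x ∈ T.C i) {U : Set V} (hU : U ∈ 𝓝 x) :
    (U ∩ interior (T.C i)).Nonempty := by
  rw [← T.closure_interior i, mem_closure_iff_nhds] at hx
  exact hx U hU

theorem eq_of_interior {i j : T.I} {x : V} (hi : x ∈ interior (T.C i)) (hj : x ∈ T.C j) :
    i = j := by
  by_contra hne
  obtain ⟨y, hy, hyj⟩ := T.open_inter hj (isOpen_interior.mem_nhds hi)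
  exact (T.disj i j hne).ne_of_mem hy hyj rfl

theorem exists_radius (hΩ : IsOpen Ω) {x : V} (hx : x ∈ Ω) : ∃ r > 0, ball x r ⊆ Ω ∧
    {i | x ∈ T.C i}.Finite ∧ ∀ i, (T.C i ∩ ball x r).Nonempty → x ∈ T.C i := by
  classical
  obtain ⟨R, hR, hRΩ⟩ := Metric.isOpen_iff.1 hΩ x hx
  obtain ⟨U, hU, hfin⟩ := T.lf x hx
  have hfin' : {i | x ∈ T.C i}.Finite := hfin.subset fun i hi => ⟨x, hi, mem_of_mem_nhds hU⟩
  -- the finite union of the cells meeting `U`, not containing `x`, is closed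
  have hcl : IsClosed (⋃ i ∈ {i | (T.C i ∩ U).Nonempty ∧ x ∉ T.C i}, T.C i) :=
    (hfin.subset fun i hi => hi.1).isClosed_biUnion fun i _ => T.isClosed i
  have hxn : (⋃ i ∈ {i | (T.C i ∩ U).Nonempty ∧ x ∉ T.C i}, T.C i)ᶜ ∈ 𝓝 x := by
    refine hcl.isOpen_compl.mem_nhds ?_
    simp only [mem_compl_iff, mem_iUnion, not_exists]
    exact fun i hi => hi.2
  obtain ⟨r, hr, hb⟩ := Metric.mem_nhds_iff.1 (Filter.inter_mem hxn hU)
  refine ⟨min r R, lt_min hr hR, (ball_subset_ball (min_le_right _ _)).trans hRΩ, hfin', ?_⟩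
  rintro i ⟨y, hy, hyb⟩
  by_contra hxi
  obtain ⟨h1, h2⟩ := hb (ball_subset_ball (min_le_left _ _) hyb)
  exact h1 (mem_biUnion (show i ∈ {i | (T.C i ∩ U).Nonempty ∧ x ∉ T.C i} from ⟨⟨y, hy, h2⟩, hxi⟩)
    hy)

theorem separate {i j : T.I} (hij : i ≠ j) : ∃ (n : V →L[ℝ] ℝ) (c : ℝ), n ≠ 0 ∧
    T.C i ⊆ {x | n x ≤ c} ∧ T.C j ⊆ {x | c ≤ n x} := by
  have hd : Disjoint (interior (T.C i)) (T.C j) := by
    rw [Set.disjoint_left]
    intro x hx hx'
    exact hij (T.eq_of_interior hx hx')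
  obtain ⟨n, c, h1, h2⟩ := geometric_hahn_banach_open (T.convex i).interior isOpen_interior
    (T.convex j) hd
  refine ⟨n, c, ?_, ?_, h2⟩
  · rintro rfl
    obtain ⟨a, ha⟩ := T.int i
    obtain ⟨b, hb⟩ := T.int j
    have h3 := h1 a ha
    have h4 := h2 b (interior_subset hb)
    simp at h3 h4
    linarith
  · rw [← T.closure_interior i]
    refine closure_minimal (fun x hx => (h1 x hx).le) ?_
    exact isClosed_le n.continuous continuous_const

theorem exists_pos {n : V →L[ℝ] ℝ} (hn : n ≠ 0) : ∃ v, 0 < n v := by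
  obtain ⟨v, hv⟩ : ∃ v, n v ≠ 0 := by
    by_contra hcon
    push Not at hcon
    exact hn (ContinuousLinearMap.ext hcon)
  rcases lt_or_gt_of_ne hv with h | h
  · exact ⟨-v, by rw [map_neg]; linarith⟩
  · exact ⟨v, h⟩

theorem lt_of_mem_interior {n : V →L[ℝ] ℝ} (hn : n ≠ 0) {c : ℝ} {C : Set V}
    (hC : C ⊆ {x | n x ≤ c}) {x : V} (hx : x ∈ interior C) : n x < c := by
  obtain ⟨v, hv⟩ := exists_pos hn
  have hc : Continuous fun t : ℝ => x + t • v := by fun_prop
  have h1 : ∀ᶠ t in 𝓝[>] (0:ℝ), x + t • v ∈ interior C := by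
    have : ∀ᶠ t in 𝓝 (0:ℝ), x + t • v ∈ interior C := by
      refine hc.continuousAt.preimage_mem_nhds ?_
      rw [zero_smul, add_zero]
      exact isOpen_interior.mem_nhds hx
    exact this.filter_mono nhdsWithin_le_nhds
  obtain ⟨t, ht, ht0⟩ := (h1.and self_mem_nhdsWithin).exists
  have h2 : n (x + t • v) ≤ c := hC (interior_subset ht)
  rw [map_add, map_smul, smul_eq_mul] at h2
  have : 0 < t * n v := mul_pos ht0 hv
  linarith

theorem gt_of_mem_interior {n : V →L[ℝ] ℝ} (hn : n ≠ 0) {c : ℝ} {C : Set V}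
    (hC : C ⊆ {x | c ≤ n x}) {x : V} (hx : x ∈ interior C) : c < n x := by
  have h1 : C ⊆ {x | (-n) x ≤ -c} := fun y hy => by
    have h : c ≤ n y := hC hy
    show -(n y) ≤ -c
    linarith
  have h2 := lt_of_mem_interior (neg_ne_zero.2 hn) h1 hx
  have h3 : -(n x) < -c := h2
  linarith

/-- points of the ball on the hyperplane are limits of points of the open half ball -/
theorem mem_of_half {n : V →L[ℝ] ℝ} (hn : n ≠ 0) {x : V} {r : ℝ} {C : Set V} (hC : IsClosed C)
    {c : ℝ} (h : ∀ y ∈ ball x r, n y < c → y ∈ C) {y : V} (hy : y ∈ ball x r) (hyc : n y ≤ c) :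
    y ∈ C := by
  obtain ⟨v, hv⟩ := exists_pos hn
  have hcont : Continuous fun t : ℝ => y - t • v := by fun_prop
  have h1 : ∀ᶠ t in 𝓝[>] (0:ℝ), y - t • v ∈ ball x r := by
    have : ∀ᶠ t in 𝓝 (0:ℝ), y - t • v ∈ ball x r := by
      refine hcont.continuousAt.preimage_mem_nhds ?_
      rw [zero_smul, sub_zero]
      exact isOpen_ball.mem_nhds hy
    exact this.filter_mono nhdsWithin_le_nhds
  have h2 : ∀ᶠ t in 𝓝[>] (0:ℝ), y - t • v ∈ C := by
    filter_upwards [h1, self_mem_nhdsWithin] with t ht ht0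
    refine h _ ht ?_
    rw [map_sub, map_smul, smul_eq_mul]
    have : 0 < t * n v := mul_pos ht0 hv
    linarith
  have h3 : Tendsto (fun t : ℝ => y - t • v) (𝓝[>] 0) (𝓝 y) := by
    have := (hcont.tendsto 0).mono_left (nhdsWithin_le_nhds (s := Ioi (0:ℝ)))
    rwa [zero_smul, sub_zero] at this
  exact hC.mem_of_tendsto h3 h2

theorem eq_or {x : V} (hK : x ∉ T.K1) {i j k : T.I} (hij : i ≠ j) (hi : x ∈ T.C i)
    (hj : x ∈ T.C j) (hk : x ∈ T.C k) : k = i ∨ k = j := by
  by_contra hcon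
  push Not at hcon
  exact hK ⟨i, j, k, hij, fun e => hcon.1 e.symm, fun e => hcon.2 e.symm, hi, hj, hk⟩

/-- two cells at a point off the one-skeleton, with a given separating functional -/
theorem two_of_sep {i j : T.I} (hij : i ≠ j) {x : V} (hi : x ∈ T.C i)
    (hj : x ∈ T.C j) (hK : x ∉ T.K1) {n : V →L[ℝ] ℝ} {c : ℝ} (hn : n ≠ 0)
    (h1 : T.C i ⊆ {x | n x ≤ c}) (h2 : T.C j ⊆ {x | c ≤ n x}) {r : ℝ}
    (hball : ball x r ⊆ Ω) (hr : ∀ i, (T.C i ∩ ball x r).Nonempty → x ∈ T.C i) :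
    ∀ y ∈ ball x r, (y ∈ T.C i ↔ n y ≤ n x) ∧ (y ∈ T.C j ↔ n x ≤ n y) := by
  have hc : n x = c := le_antisymm (h1 hi) (h2 hj)
  have hcov : ∀ y ∈ ball x r, y ∈ T.C i ∨ y ∈ T.C j := by
    intro y hy
    obtain ⟨k, hk⟩ := T.exists_mem (hball hy)
    rcases T.eq_or hK hij hi hj (hr k ⟨y, hk, hy⟩) with rfl | rfl
    · exact Or.inl hk
    · exact Or.inr hk
  rw [hc]
  intro y hy
  refine ⟨⟨fun h => h1 h, fun h => ?_⟩, ⟨fun h => h2 h, fun h => ?_⟩⟩
  · refine mem_of_half hn (T.isClosed i) (fun z hz hzc => ?_) hy h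
    rcases hcov z hz with h3 | h3
    · exact h3
    · have : c ≤ n z := h2 h3
      linarith
  · refine mem_of_half (n := -n) (c := -c) (neg_ne_zero.2 hn) (T.isClosed j)
      (fun z hz hzc => ?_) hy (neg_le_neg h)
    rcases hcov z hz with h3 | h3
    · have : n z ≤ c := h1 h3
      have h4 : -(n z) < -c := hzc
      linarith
    · exact h3

end Tiling

theorem specTwo : SpecTwo := by
  intro Ω o T hΩ x hx hK
  obtain ⟨r, hr, hb, -, hmem⟩ := T.exists_radius hΩ hx
  obtain ⟨i, hi⟩ := T.exists_mem hx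
  by_cases hj : ∃ j, j ≠ i ∧ x ∈ T.C j
  · right
    obtain ⟨j, hji, hj⟩ := hj
    obtain ⟨n, c, hn, h1, h2⟩ := T.separate hji.symm
    refine ⟨i, j, hji.symm, hi, hj, n, hn, r, hr, fun k hk => ?_, ?_⟩
    · exact T.eq_or hK hji.symm hi hj (hmem k hk)
    · exact T.two_of_sep hji.symm hi hj hK hn h1 h2 hb hmem
  · left
    push Not at hj
    refine ⟨i, r, hr, interior_maximal (fun y hy => ?_) isOpen_ball⟩
    obtain ⟨k, hk⟩ := T.exists_mem (hb hy)
    by_cases hki : k = i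
    · exact hki ▸ hk
    · exact absurd (hmem k ⟨y, hk, hy⟩) (hj k hki)

/-- a convex set containing a relative ball of the plane `{n = c}` around `y` and a point with
`n < c` contains a half ball -/
theorem half_of_rel {C : Set V} (hC : Convex ℝ C) {n : V →L[ℝ] ℝ} {c : ℝ} {y p : V} (hy : n y = c)
    (hp : p ∈ C) (hpc : n p < c) {r : ℝ} (hr : 0 < r) (h : ∀ z ∈ ball y r, n z = c → z ∈ C) :
    ∀ᶠ z in 𝓝 y, n z ≤ c → z ∈ C := by
  -- the central projection from `p`
  have hcont : ContinuousAt (fun z => p + ((c - n p) / (n z - n p)) • (z - p)) y := by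
    have h1 : n y - n p ≠ 0 := by rw [hy]; linarith
    have h2 : ContinuousAt (fun z => n z - n p) y := by fun_prop
    have h3 : ContinuousAt (fun z : V => z - p) y := by fun_prop
    exact continuousAt_const.add ((continuousAt_const.div h2 h1).smul h3)
  have hval : p + ((c - n p) / (n y - n p)) • (y - p) = y := by
    have h1 : c - n p ≠ 0 := by linarith
    rw [hy, div_self h1, one_smul, add_sub_cancel]
  have h2 : ∀ᶠ z in 𝓝 y, p + ((c - n p) / (n z - n p)) • (z - p) ∈ ball y r := by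
    refine hcont.preimage_mem_nhds ?_
    rw [hval]; exact ball_mem_nhds y hr
  have h3 : ∀ᶠ z in 𝓝 y, n p < n z := by
    refine n.continuous.continuousAt.eventually_const_lt ?_
    rw [hy]; exact hpc
  filter_upwards [h2, h3] with z hz hpz hzc
  have hd : 0 < n z - n p := by linarith
  have hmem : p + ((c - n p) / (n z - n p)) • (z - p) ∈ C := by
    refine h _ hz ?_
    rw [map_add, map_smul, map_sub, smul_eq_mul, div_mul_cancel₀ _ hd.ne']
    ring
  have hs : (1:ℝ) ≤ (c - n p) / (n z - n p) := by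
    rw [one_le_div hd]; linarith
  set s := (c - n p) / (n z - n p) with hsdef
  have hs0 : 0 < s := by linarith
  have e : z = (1 - s⁻¹) • p + s⁻¹ • (p + s • (z - p)) := by
    rw [smul_add, smul_smul, inv_mul_cancel₀ hs0.ne', one_smul]
    module
  rw [e]
  refine hC hp hmem ?_ (inv_nonneg.2 hs0.le) (by ring)
  rw [sub_nonneg]
  exact inv_le_one_of_one_le₀ hs

/-- the relative interior of a face misses the other cells -/
theorem Tiling.notMem_K1_of_rel (T : Tiling Ω o) {i j : T.I} (hij : i ≠ j) {n : V →L[ℝ] ℝ}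
    {c : ℝ} (hn : n ≠ 0) (h1 : T.C i ⊆ {x | n x ≤ c}) (h2 : T.C j ⊆ {x | c ≤ n x}) {y : V}
    (hi : y ∈ T.C i) (hj : y ∈ T.C j) {r : ℝ} (hr : 0 < r)
    (h : ∀ z ∈ ball y r, n z = c → z ∈ T.C i ∩ T.C j) : y ∉ T.K1 := by
  have hyc : n y = c := le_antisymm (h1 hi) (h2 hj)
  obtain ⟨p, hp⟩ := T.int i
  obtain ⟨q, hq⟩ := T.int j
  have e1 := half_of_rel (T.convex i) hyc (interior_subset hp)
    (Tiling.lt_of_mem_interior hn h1 hp) hr fun z hz hzc => (h z hz hzc).1
  have e2 := half_of_rel (n := -n) (c := -c) (T.convex j) (neg_inj.2 hyc) (interior_subset hq)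
    (neg_lt_neg (Tiling.gt_of_mem_interior hn h2 hq)) hr
    fun z hz hzc => (h z hz (neg_inj.1 hzc)).2
  -- every cell at `y` is `i` or `j`
  have key : ∀ k, y ∈ T.C k → k = i ∨ k = j := by
    intro k hk
    by_contra hcon
    push Not at hcon
    have hnb : {z | (n z ≤ c → z ∈ T.C i) ∧ ((-n) z ≤ -c → z ∈ T.C j)} ∈ 𝓝 y :=
      e1.and e2
    rw [_root_.mem_nhds_iff] at hnb
    obtain ⟨U, hU, hUo, hyU⟩ := hnb
    obtain ⟨z, hzU, hzk⟩ := T.open_inter hk (hUo.mem_nhds hyU)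
    rcases le_total (n z) c with hz | hz
    · exact hcon.1 (T.eq_of_interior hzk ((hU hzU).1 hz))
    · exact hcon.2 (T.eq_of_interior hzk ((hU hzU).2 (neg_le_neg hz)))
  rintro ⟨i₁, i₂, i₃, h12, h13, h23, m1, m2, m3⟩
  rcases key i₁ m1 with a | a <;> rcases key i₂ m2 with b | b <;>
    rcases key i₃ m3 with d | d <;> subst a <;> subst b <;> simp_all

theorem specFace : SpecFace := by
  intro Ω o T hΩ i j hij _
  obtain ⟨n, c, hn, h1, h2⟩ := T.separate hij
  refine ⟨n, c, hn, h1, h2, ?_⟩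
  ext y
  constructor
  · rintro ⟨hy, hK⟩
    refine ⟨hy, fun r hr => ?_⟩
    by_contra hcon
    push Not at hcon
    exact T.notMem_K1_of_rel hij hn h1 h2 hy.1 hy.2 hr hcon hK
  · rintro ⟨hy, hr⟩
    refine ⟨hy, ?_⟩
    by_contra hK
    have hyc : n y = c := le_antisymm (h1 hy.1) (h2 hy.2)
    obtain ⟨r, hr0, hb, -, hmem⟩ := T.exists_radius hΩ (T.subset i hy.1)
    have h3 := T.two_of_sep hij hy.1 hy.2 hK hn h1 h2 hb hmem
    obtain ⟨z, hz, hzc, hzn⟩ := hr r hr0
    exact hzn ⟨(h3 z hz).1.2 (by rw [hzc, hyc]), (h3 z hz).2.2 (by rw [hzc, hyc])⟩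

end P073.KW
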