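import Vale.Agent.P073.KW720.Struct

/-!
# P073, block KW: rational convex tilings (vertices, edges, wedges)
-/

open Set Metric Topology Filter

namespace P073.KW

open Vale.Agent.P073.St (V)
open P073.Net P073.PR720

variable {Ω : Set V} {o : V}

/-- the linear part of a rational affine function -/
def rl (h : (Fin 3 → ℚ) × ℚ) (v : V) : ℝ := ∑ k, (h.1 k : ℝ) * v k

theorem rf_add_smul (o : V) (h : (Fin 3 → ℚ) × ℚ) (x v : V) (t : ℝ) :
    rf o h (x + t • v) = rf o h x + t * rl h v := by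
  rw [rf_add]
  unfold rl
  rw [Finset.mul_sum]
  congr 1
  refine Finset.sum_congr rfl fun k _ => ?_
  rw [Pi.smul_apply, smul_eq_mul]; ring

theorem rf_sub (o : V) (h : (Fin 3 → ℚ) × ℚ) (x y : V) : rf o h y - rf o h x = rl h (y - x) := by
  have := rf_add_smul o h x (y - x) 1
  rw [one_smul, one_mul, add_sub_cancel] at this
  linarith

theorem rl_smul (h : (Fin 3 → ℚ) × ℚ) (t : ℝ) (v : V) : rl h (t • v) = t * rl h v := by
  unfold rl
  rw [Finset.mul_sum]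
  refine Finset.sum_congr rfl fun k _ => ?_
  rw [Pi.smul_apply, smul_eq_mul]; ring

namespace Tiling

variable (T : Tiling Ω o)

theorem Inv.smul {T : Tiling Ω o} {x w : V} (h : T.Inv x w) (s : ℝ) : T.Inv x (s • w) := by
  obtain ⟨r, hr, H⟩ := h
  refine ⟨r, hr, fun i y hy t ht => ?_⟩
  rw [smul_smul] at ht ⊢
  exact H i y hy _ ht

/-- the description of the cells near `x` by the active constraints -/
theorem exists_active (hΩ : IsOpen Ω) {x : V} (hx : x ∈ Ω) : ∃ r > 0, ball x r ⊆ Ω ∧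
    ∃ H : T.I → Finset ((Fin 3 → ℚ) × ℚ), (∀ i, T.C i = {y | ∀ h ∈ H i, rf o h y ≤ 0}) ∧
      (∀ i, (T.C i ∩ ball x r).Nonempty → x ∈ T.C i) ∧
      ∀ i, x ∈ T.C i → ∀ h ∈ H i, rf o h x = 0 ∨ ∀ y ∈ ball x r, rf o h y < 0 := by
  classical
  obtain ⟨r, hr, hb, hfin, hmem⟩ := T.exists_radius hΩ hx
  choose H hH using T.poly
  have key : ∀ i, x ∈ T.C i → ∀ h ∈ H i, ∀ᶠ s in 𝓝[>] (0:ℝ),
      rf o h x = 0 ∨ ∀ y ∈ ball x s, rf o h y < 0 := by
    intro i hi h hh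
    have h1 : rf o h x ≤ 0 := by
      rw [hH i] at hi; exact hi h hh
    rcases h1.eq_or_lt with h2 | h2
    · exact Eventually.of_forall fun _ => Or.inl h2
    · have h3 : ∀ᶠ y in 𝓝 x, rf o h y < 0 := (continuous_rf o h).continuousAt.eventually_lt_const h2
      obtain ⟨ε, hε, hb⟩ := Metric.mem_nhds_iff.1 h3
      filter_upwards [Ioo_mem_nhdsGT hε] with s hs
      right
      intro y hy
      exact hb (ball_subset_ball hs.2.le hy)
  have key2 : ∀ i, x ∈ T.C i → ∀ᶠ s in 𝓝[>] (0:ℝ), ∀ h ∈ H i,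
      rf o h x = 0 ∨ ∀ y ∈ ball x s, rf o h y < 0 := fun i hi =>
    (Filter.eventually_all_finset (H i)).2 fun h hh => key i hi h hh
  have key3 : ∀ᶠ s in 𝓝[>] (0:ℝ), ∀ i ∈ {i | x ∈ T.C i}, ∀ h ∈ H i,
      rf o h x = 0 ∨ ∀ y ∈ ball x s, rf o h y < 0 :=
    (hfin.eventually_all (l := 𝓝[>] (0:ℝ))).2 fun i hi => key2 i hi
  obtain ⟨s, hs, hs0⟩ := (key3.and (Ioo_mem_nhdsGT hr)).exists
  refine ⟨s, hs0.1, (ball_subset_ball hs0.2.le).trans hb, H, hH, fun i hi => ?_, hs⟩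
  exact hmem i (hi.mono (inter_subset_inter_right _ (ball_subset_ball hs0.2.le)))

theorem K0_isolated (hΩ : IsOpen Ω) {x : V} (hx : x ∈ Ω) : ∃ r > 0, T.K0 ∩ ball x r ⊆ {x} := by
  classical
  obtain ⟨r, hr, hb, H, hH, hmem, hact⟩ := T.exists_active hΩ hx
  have hfin := (T.exists_radius hΩ hx).choose_spec.2.2.1
  refine ⟨r, hr, ?_⟩
  rintro y ⟨hyK, hy⟩
  by_contra hne
  have hne' : y - x ≠ 0 := sub_ne_zero.2 hne
  apply hne'
  refine hyK.2 (y - x) ?_
  -- the constraints which do not vanish at `y` have constant sign near `y`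
  have key : ∀ i, ∀ h ∈ H i, ∀ᶠ s in 𝓝[>] (0:ℝ), rf o h y = 0 ∨
      (∀ z ∈ ball y s, rf o h z < 0) ∨ ∀ z ∈ ball y s, 0 < rf o h z := by
    intro i h _
    rcases lt_trichotomy (rf o h y) 0 with h2 | h2 | h2
    · have h3 : ∀ᶠ z in 𝓝 y, rf o h z < 0 :=
        (continuous_rf o h).continuousAt.eventually_lt_const h2
      obtain ⟨ε, hε, hb⟩ := Metric.mem_nhds_iff.1 h3
      filter_upwards [Ioo_mem_nhdsGT hε] with s hs
      exact Or.inr (Or.inl fun z hz => hb (ball_subset_ball hs.2.le hz))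
    · exact Eventually.of_forall fun _ => Or.inl h2
    · have h3 : ∀ᶠ z in 𝓝 y, 0 < rf o h z :=
        (continuous_rf o h).continuousAt.eventually_const_lt h2
      obtain ⟨ε, hε, hb⟩ := Metric.mem_nhds_iff.1 h3
      filter_upwards [Ioo_mem_nhdsGT hε] with s hs
      exact Or.inr (Or.inr fun z hz => hb (ball_subset_ball hs.2.le hz))
  have key3 : ∀ᶠ s in 𝓝[>] (0:ℝ), ∀ i ∈ {i | x ∈ T.C i}, ∀ h ∈ H i, rf o h y = 0 ∨
      (∀ z ∈ ball y s, rf o h z < 0) ∨ ∀ z ∈ ball y s, 0 < rf o h z :=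
    (hfin.eventually_all (l := 𝓝[>] (0:ℝ))).2 fun i _ =>
      (Filter.eventually_all_finset (H i)).2 fun h hh => key i h hh
  have key4 : ∀ᶠ s in 𝓝[>] (0:ℝ), ball y s ⊆ ball x r := by
    obtain ⟨ε, hε, hb⟩ := Metric.isOpen_iff.1 isOpen_ball y hy
    filter_upwards [Ioo_mem_nhdsGT hε] with s hs
    exact (ball_subset_ball hs.2.le).trans hb
  obtain ⟨s, ⟨hs, hsb⟩, hs0⟩ := ((key3.and key4).and self_mem_nhdsWithin).exists
  refine ⟨s, hs0, fun i z hz t hzt => ?_⟩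
  by_cases hi : x ∈ T.C i
  · have hcons : ∀ h ∈ H i, (rf o h z ≤ 0 ↔ rf o h (z + t • (y - x)) ≤ 0) := by
      intro h hh
      rcases hs i hi h hh with h1 | h1 | h1
      · rcases hact i hi h hh with h2 | h2
        · have : rl h (y - x) = 0 := by rw [← rf_sub o h x y, h1, h2, sub_zero]
          rw [rf_add_smul, this, mul_zero, add_zero]
        · exact absurd h1 (h2 y hy).ne
      · exact iff_of_true (h1 z hz).le (h1 _ hzt).le
      · exact iff_of_false (not_le.2 (h1 z hz)) (not_le.2 (h1 _ hzt))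
    rw [hH i]
    constructor
    · intro h h' hh; exact (hcons h' hh).1 (h h' hh)
    · intro h h' hh; exact (hcons h' hh).2 (h h' hh)
  · constructor
    · intro h; exact absurd (hmem i ⟨z, h, hsb hz⟩) hi
    · intro h; exact absurd (hmem i ⟨_, h, hsb hzt⟩) hi

theorem K0_subset : T.K0 ⊆ Ω := fun _ h => h.1

theorem countable_K0 (hΩ : IsOpen Ω) : T.K0.Countable := by
  have h1 : ∀ x ∈ T.K0, ({x} : Set V) ∈ 𝓝[T.K0] x := by
    intro x hx
    obtain ⟨r, hr, hb⟩ := T.K0_isolated hΩ hx.1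
    rw [mem_nhdsWithin]
    exact ⟨ball x r, isOpen_ball, mem_ball_self hr, fun y hy => hb ⟨hy.2, hy.1⟩⟩
  obtain ⟨t, -, htc, ht⟩ := TopologicalSpace.countable_cover_nhdsWithin h1
  have : T.K0 ⊆ t := by
    intro x hx
    obtain ⟨y, hy, hxy⟩ := mem_iUnion₂.1 (ht hx)
    rw [mem_singleton_iff.1 hxy]; exact hy
  exact htc.mono this

end Tiling

theorem specK0 : SpecK0 := fun _ _ T hΩ => ⟨T.countable_K0 hΩ, fun _ hx => T.K0_isolated hΩ hx⟩

namespace Tiling

variable (T : Tiling Ω o)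

/-- a direction of invariance is in the kernel of all active constraints -/
theorem rl_eq_zero_of_inv {T : Tiling Ω o} {x w : V} (h : T.Inv x w) {i : T.I} (hi : x ∈ T.C i)
    {H : Finset ((Fin 3 → ℚ) × ℚ)} (hH : T.C i = {y | ∀ h ∈ H, rf o h y ≤ 0})
    {g : (Fin 3 → ℚ) × ℚ} (hg : g ∈ H) (hgx : rf o g x = 0) : rl g w = 0 := by
  obtain ⟨r, hr, H'⟩ := h
  have hcont : Continuous fun t : ℝ => x + t • w := by fun_prop
  have h1 : ∀ᶠ t in 𝓝 (0:ℝ), x + t • w ∈ ball x r := by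
    refine hcont.continuousAt.preimage_mem_nhds ?_
    rw [zero_smul, add_zero]
    exact ball_mem_nhds x hr
  have h2 : ∀ᶠ t in 𝓝 (0:ℝ), t * rl g w ≤ 0 := by
    filter_upwards [h1] with t ht
    have h3 := (H' i x (mem_ball_self hr) t ht).1 hi
    rw [hH] at h3
    have h4 := h3 g hg
    rw [rf_add_smul, hgx, zero_add] at h4
    exact h4
  obtain ⟨ε, hε, hb⟩ := Metric.mem_nhds_iff.1 h2
  have h3 : (ε / 2) * rl g w ≤ 0 := hb (by
    rw [mem_ball, Real.dist_eq, sub_zero, abs_of_pos (half_pos hε)]; linarith)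
  have h4 : (-(ε / 2)) * rl g w ≤ 0 := hb (by
    rw [mem_ball, Real.dist_eq, sub_zero, abs_neg, abs_of_pos (half_pos hε)]; linarith)
  nlinarith [half_pos hε]

end Tiling

end P073.KW
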