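import Vale.Agent.P073.Net.Defs

/-!
# P073, block KW: the Whitney tiling as a cell complex (part 1: disjointness, covering, local
finiteness)
-/

open Set Metric Topology Filter

namespace P073.KW

open Vale.Agent.P073.St (V)
open P073.Net

theorem dyo_subset_dyc (v : V) (m : ℕ) (z : Fin 3 → ℤ) : dyo v m z ⊆ dyc v m z :=
  fun _ hx k => ⟨(hx k).1.le, (hx k).2.le⟩

theorem isClosed_dyc (v : V) (m : ℕ) (z : Fin 3 → ℤ) : IsClosed (dyc v m z) := by
  have : dyc v m z = ⋂ k, {x : V | v k + z k / 2 ^ m ≤ x k ∧ x k ≤ v k + (z k + 1) / 2 ^ m} := by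
    ext x; simp [dyc]
  rw [this]
  refine isClosed_iInter fun k => ?_
  exact (isClosed_le continuous_const (continuous_apply k)).inter
    (isClosed_le (continuous_apply k) continuous_const)

theorem isOpen_dyo (v : V) (m : ℕ) (z : Fin 3 → ℤ) : IsOpen (dyo v m z) := by
  have : dyo v m z = ⋂ k, {x : V | v k + z k / 2 ^ m < x k ∧ x k < v k + (z k + 1) / 2 ^ m} := by
    ext x; simp [dyo]
  rw [this]
  refine isOpen_iInter_of_finite fun k => ?_
  exact (isOpen_lt continuous_const (continuous_apply k)).inter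
    (isOpen_lt (continuous_apply k) continuous_const)

theorem dyc_eq_Icc (v : V) (m : ℕ) (z : Fin 3 → ℤ) :
    dyc v m z = Icc (fun k => v k + z k / 2 ^ m) (fun k => v k + (z k + 1) / 2 ^ m) := by
  ext x
  simp only [dyc, mem_Icc, Pi.le_def]
  constructor
  · intro h; exact ⟨fun k => (h k).1, fun k => (h k).2⟩
  · intro h k; exact ⟨h.1 k, h.2 k⟩

theorem isCompact_dyc (v : V) (m : ℕ) (z : Fin 3 → ℤ) : IsCompact (dyc v m z) := by
  rw [dyc_eq_Icc]; exact isCompact_Icc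

/-- integers of the coordinates of two dyadic intervals which overlap -/
theorem nested_int {m d : ℕ} {a a' : ℤ} {t c : ℝ} (h1 : c + a / 2 ^ m < t)
    (h2 : t < c + (a + 1) / 2 ^ m) (h3 : c + a' / 2 ^ (m + d) < t)
    (h4 : t < c + (a' + 1) / 2 ^ (m + d)) : a * 2 ^ d ≤ a' ∧ a' + 1 ≤ (a + 1) * 2 ^ d := by
  have hm : (0:ℝ) < 2 ^ m := by positivity
  have hd : (0:ℝ) < 2 ^ d := by positivity
  have hmd : (0:ℝ) < 2 ^ (m + d) := by positivity
  have e : (2:ℝ) ^ (m + d) = 2 ^ m * 2 ^ d := pow_add _ _ _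
  have f1 : (a : ℝ) / 2 ^ m < (a' + 1) / 2 ^ (m + d) := by linarith
  have f2 : (a' : ℝ) / 2 ^ (m + d) < (a + 1) / 2 ^ m := by linarith
  rw [e, div_lt_div_iff₀ hm (by positivity)] at f1
  rw [e, div_lt_div_iff₀ (by positivity) hm] at f2
  have g1 : (a : ℝ) * 2 ^ d < a' + 1 := by
    have : ((a : ℝ) * 2 ^ d) * 2 ^ m < (a' + 1) * 2 ^ m := by nlinarith
    exact lt_of_mul_lt_mul_right this hm.le
  have g2 : (a' : ℝ) < (a + 1) * 2 ^ d := by
    have : (a' : ℝ) * 2 ^ m < ((a + 1) * 2 ^ d) * 2 ^ m := by nlinarith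
    exact lt_of_mul_lt_mul_right this hm.le
  constructor
  · have : a * 2 ^ d < a' + 1 := by exact_mod_cast g1
    omega
  · have : a' < (a + 1) * 2 ^ d := by exact_mod_cast g2
    omega

/-- dyadic intervals: inclusion from the integer inequalities -/
theorem interval_of_int {m d : ℕ} {a a' : ℤ} {c : ℝ} (h1 : a * 2 ^ d ≤ a')
    (h2 : a' + 1 ≤ (a + 1) * 2 ^ d) :
    c + a / 2 ^ m ≤ c + a' / 2 ^ (m + d) ∧ c + (a' + 1) / 2 ^ (m + d) ≤ c + (a + 1) / 2 ^ m := by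
  have hm : (0:ℝ) < 2 ^ m := by positivity
  have hd : (0:ℝ) < 2 ^ d := by positivity
  have e : (2:ℝ) ^ (m + d) = 2 ^ m * 2 ^ d := pow_add _ _ _
  have k1 : (a : ℝ) * 2 ^ d ≤ a' := by exact_mod_cast h1
  have k2 : (a' : ℝ) + 1 ≤ (a + 1) * 2 ^ d := by exact_mod_cast h2
  constructor
  · have : (a : ℝ) / 2 ^ m ≤ a' / 2 ^ (m + d) := by
      rw [e, div_le_div_iff₀ hm (by positivity)]
      nlinarith
    linarith
  · have : ((a' : ℝ) + 1) / 2 ^ (m + d) ≤ (a + 1) / 2 ^ m := by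
      rw [e, div_le_div_iff₀ (by positivity) hm]
      nlinarith
    linarith

theorem dyc_subset_of_meet {v : V} {m m' : ℕ} {z z' : Fin 3 → ℤ} (hm : m ≤ m')
    (h : (dyo v m z ∩ dyo v m' z').Nonempty) : dyc v m' z' ⊆ dyc v m z := by
  obtain ⟨x, hx, hx'⟩ := h
  obtain ⟨d, rfl⟩ := Nat.exists_eq_add_of_le hm
  intro y hy k
  obtain ⟨i1, i2⟩ := nested_int (hx k).1 (hx k).2 (hx' k).1 (hx' k).2
  obtain ⟨j1, j2⟩ := interval_of_int (m := m) (c := v k) i1 i2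
  exact ⟨j1.trans (hy k).1, (hy k).2.trans j2⟩

theorem eq_of_meet {v : V} {m : ℕ} {z z' : Fin 3 → ℤ}
    (h : (dyo v m z ∩ dyo v m z').Nonempty) : z = z' := by
  obtain ⟨x, hx, hx'⟩ := h
  funext k
  obtain ⟨i1, i2⟩ := nested_int (d := 0) (hx k).1 (hx k).2 (hx' k).1 (hx' k).2
  simp at i1 i2
  omega

variable {Λ : Set V} {ρ : V → ℝ} {v : V}

/-- distinct tiles have disjoint interiors -/
theorem tile_eq_of_meet {m m' : ℕ} {z z' : Fin 3 → ℤ} (h : IsTile ρ v m z)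
    (h' : IsTile ρ v m' z') (hne : (dyo v m z ∩ dyo v m' z').Nonempty) : (m, z) = (m', z') := by
  have key : ∀ {m m' : ℕ} {z z' : Fin 3 → ℤ}, IsTile ρ v m z → IsTile ρ v m' z' →
      (dyo v m z ∩ dyo v m' z').Nonempty → ¬ m < m' := by
    intro m m' z z' h h' hne hlt
    exact h'.2 m z hlt (dyc_subset_of_meet hlt.le hne) h.1
  have hm : m = m' := by
    rcases lt_trichotomy m m' with hlt | heq | hgt
    · exact absurd hlt (key h h' hne)
    · exact heq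
    · rw [inter_comm] at hne
      exact absurd hgt (key h' h hne)
  subst hm
  rw [eq_of_meet hne]

/-- points of the closed cube are limits of points of the open cube, in the direction of the
centre -/
theorem ctr_mem (v : V) (m : ℕ) (z : Fin 3 → ℤ) :
    (fun k => v k + (z k + 1 / 2) / 2 ^ m : V) ∈ dyo v m z := by
  intro k
  have hm : (0:ℝ) < 2 ^ m := by positivity
  constructor
  · have : (z k : ℝ) / 2 ^ m < (z k + 1 / 2) / 2 ^ m := by
      apply div_lt_div_of_pos_right _ hm; linarith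
    simpa using this
  · have : ((z k : ℝ) + 1 / 2) / 2 ^ m < (z k + 1) / 2 ^ m := by
      apply div_lt_div_of_pos_right _ hm; linarith
    simpa using this

theorem segment_mem_dyo {m : ℕ} {z : Fin 3 → ℤ} {x y : V} (hx : x ∈ dyc v m z)
    (hy : y ∈ dyo v m z) {t : ℝ} (ht : t ∈ Ioc (0:ℝ) 1) : x + t • (y - x) ∈ dyo v m z := by
  intro k
  have h1 := hx k
  have h2 := hy k
  have e : (x + t • (y - x)) k = (1 - t) * x k + t * y k := by
    simp only [Pi.add_apply, Pi.smul_apply, Pi.sub_apply, smul_eq_mul]; ring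
  rw [e]
  constructor
  · have a1 : (1 - t) * (v k + z k / 2 ^ m) ≤ (1 - t) * x k :=
      mul_le_mul_of_nonneg_left h1.1 (by linarith [ht.2])
    have a2 : t * (v k + z k / 2 ^ m) < t * y k := mul_lt_mul_of_pos_left h2.1 ht.1
    linarith
  · have a1 : (1 - t) * x k ≤ (1 - t) * (v k + (z k + 1) / 2 ^ m) :=
      mul_le_mul_of_nonneg_left h1.2 (by linarith [ht.2])
    have a2 : t * y k < t * (v k + (z k + 1) / 2 ^ m) := mul_lt_mul_of_pos_left h2.2 ht.1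
    linarith

/-- if a point of an open set lies in the closed cube, the open set meets the open cube -/
theorem open_meets_dyo {m : ℕ} {z : Fin 3 → ℤ} {x : V} (hx : x ∈ dyc v m z) {U : Set V}
    (hU : U ∈ 𝓝 x) : (U ∩ dyo v m z).Nonempty := by
  have hc : ContinuousAt (fun t : ℝ => x + t • ((fun k => v k + (z k + 1 / 2) / 2 ^ m : V) - x)) 0 := by
    fun_prop
  have h0 : U ∈ 𝓝 (x + (0:ℝ) • ((fun k => v k + (z k + 1 / 2) / 2 ^ m : V) - x)) := by
    rw [zero_smul, add_zero]; exact hU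
  have h1 := hc.preimage_mem_nhds h0
  obtain ⟨ε, hε, hb⟩ := Metric.mem_nhds_iff.1 h1
  have ht : min (ε / 2) 1 ∈ Ioc (0:ℝ) 1 := ⟨lt_min (half_pos hε) one_pos, min_le_right _ _⟩
  have hmem : min (ε / 2) 1 ∈ ball (0:ℝ) ε := by
    rw [mem_ball, Real.dist_eq, sub_zero, abs_of_pos ht.1]
    exact (min_le_left _ _).trans_lt (by linarith)
  exact ⟨_, hb hmem, segment_mem_dyo hx (ctr_mem v m z) ht⟩

theorem disjoint_dyo_dyc {m m' : ℕ} {z z' : Fin 3 → ℤ} (h : IsTile ρ v m z)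
    (h' : IsTile ρ v m' z') (hne : (m, z) ≠ (m', z')) : Disjoint (dyo v m z) (dyc v m' z') := by
  rw [Set.disjoint_left]
  intro x hx hx'
  exact hne (tile_eq_of_meet h h' (open_meets_dyo hx' ((isOpen_dyo v m z).mem_nhds hx)))

/-- side bounds on the tiles -/
theorem tile_bounds (hρ : SizeFn Λ ρ) {m : ℕ} {z : Fin 3 → ℤ} (h : IsTile ρ v m z) {x : V}
    (hx : x ∈ dyc v m z) : (1 / 2 ^ m : ℝ) ≤ ρ x ∧ ρ x ≤ 4 / 2 ^ m := by
  refine ⟨h.1 x hx, ?_⟩
  rcases Nat.eq_zero_or_pos m with h0 | h0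
  · subst h0
    have := hρ.le_one x
    norm_num; linarith
  · obtain ⟨n, rfl⟩ : ∃ n, m = n + 1 := ⟨m - 1, by omega⟩
    have hp : (0:ℝ) < 2 ^ n := by positivity
    have hsub : dyc v (n + 1) z ⊆ dyc v n (fun k => z k / 2) := by
      intro y hy k
      have h1 : (z k / 2) * 2 ^ 1 ≤ z k := by omega
      have h2 : z k + 1 ≤ (z k / 2 + 1) * 2 ^ 1 := by omega
      obtain ⟨j1, j2⟩ := interval_of_int (m := n) (d := 1) (c := v k) h1 h2
      exact ⟨j1.trans (hy k).1, (hy k).2.trans j2⟩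
    have hna := h.2 n (fun k => z k / 2) (Nat.lt_succ_self n) hsub
    unfold Adm at hna
    push Not at hna
    obtain ⟨y, hy, hyρ⟩ := hna
    have hxy : ‖x - y‖ ≤ 1 / 2 ^ n := by
      rw [pi_norm_le_iff_of_nonneg (by positivity)]
      intro k
      have a := hsub hx k
      have b := hy k
      have e : ((((fun k => z k / 2) k : ℤ) : ℝ) + 1) / 2 ^ n =
        (((fun k => z k / 2) k : ℤ) : ℝ) / 2 ^ n + 1 / 2 ^ n := by rw [add_div]
      rw [e] at a b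
      rw [Real.norm_eq_abs, Pi.sub_apply, abs_le]
      constructor <;> linarith [a.1, a.2, b.1, b.2]
    have h3 := hρ.lip x y
    have h4 : (4:ℝ) / 2 ^ (n + 1) = 2 * (1 / 2 ^ n) := by rw [pow_succ]; field_simp; norm_num
    rw [h4]
    linarith

theorem tile_subset (hρ : SizeFn Λ ρ) {m : ℕ} {z : Fin 3 → ℤ} (h : IsTile ρ v m z) :
    dyc v m z ⊆ Λ := by
  intro x hx
  by_contra hxΛ
  have h1 := (tile_bounds hρ h hx).1
  have h2 := hρ.off x hxΛ
  have h3 : (0:ℝ) < 1 / 2 ^ m := by positivity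
  linarith

/-- the tiles cover -/
theorem exists_tile (hρ : SizeFn Λ ρ) {x : V} (hx : x ∈ Λ) : ∃ m z, IsTile ρ v m z ∧
    x ∈ dyc v m z := by
  classical
  have hpos := hρ.pos x hx
  obtain ⟨m, hm⟩ := exists_pow_lt_of_lt_one (half_pos hpos) (show (1/2:ℝ) < 1 by norm_num)
  have hm' : (1:ℝ) / 2 ^ m < ρ x / 2 := by rwa [one_div, ← inv_pow, inv_eq_one_div]
  let z : Fin 3 → ℤ := fun k => ⌊(x k - v k) * 2 ^ m⌋
  have hp : (0:ℝ) < 2 ^ m := by positivity
  have hxz : x ∈ dyc v m z := by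
    intro k
    have h1 := Int.floor_le ((x k - v k) * 2 ^ m)
    have h2 := Int.lt_floor_add_one ((x k - v k) * 2 ^ m)
    constructor
    · have : ((z k : ℤ) : ℝ) / 2 ^ m ≤ x k - v k := by rw [div_le_iff₀ hp]; exact h1
      linarith
    · have : x k - v k ≤ (((z k : ℤ) : ℝ) + 1) / 2 ^ m := by rw [le_div_iff₀ hp]; exact h2.le
      linarith
  have hadm : Adm ρ v m z := by
    intro y hy
    have hxy : ‖x - y‖ ≤ 1 / 2 ^ m := by
      rw [pi_norm_le_iff_of_nonneg (by positivity)]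
      intro k
      have a := hxz k
      have b := hy k
      have e : ((z k : ℝ) + 1) / 2 ^ m = (z k : ℝ) / 2 ^ m + 1 / 2 ^ m := by rw [add_div]
      rw [e] at a b
      rw [Real.norm_eq_abs, Pi.sub_apply, abs_le]
      constructor <;> linarith [a.1, a.2, b.1, b.2]
    have := hρ.lip x y
    linarith
  have hex : ∃ n, ∃ z, x ∈ dyc v n z ∧ Adm ρ v n z := ⟨m, z, hxz, hadm⟩
  obtain ⟨z', hz', hadm'⟩ := Nat.find_spec hex
  refine ⟨Nat.find hex, z', ⟨hadm', fun m' z'' hlt hsub hadm'' => ?_⟩, hz'⟩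
  exact Nat.find_min hex hlt ⟨z'', hsub hz', hadm''⟩

/-- finitely many tiles meet a compact subset -/
theorem finite_tiles (hρ : SizeFn Λ ρ) {K : Set V} (hK : K ⊆ Λ) (hKc : IsCompact K) :
    {p : ℕ × (Fin 3 → ℤ) | IsTile ρ v p.1 p.2 ∧ (dyc v p.1 p.2 ∩ K).Nonempty}.Finite := by
  classical
  rcases K.eq_empty_or_nonempty with rfl | hne
  · simp
  have hlip : ∀ x y, |ρ x - ρ y| ≤ ‖x - y‖ := by
    intro x y
    rw [abs_le]
    have h1 := hρ.lip x y
    have h2 := hρ.lip y x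
    rw [norm_sub_rev] at h2
    constructor <;> linarith
  have hcont : Continuous ρ := by
    rw [Metric.continuous_iff]
    intro b ε hε
    refine ⟨ε, hε, fun a ha => ?_⟩
    rw [Real.dist_eq]
    exact (hlip a b).trans_lt (by rwa [dist_eq_norm] at ha)
  obtain ⟨x₀, hx₀, hmin⟩ := hKc.exists_isMinOn hne hcont.continuousOn
  have hc : 0 < ρ x₀ := hρ.pos x₀ (hK hx₀)
  obtain ⟨N, hN⟩ := exists_pow_lt_of_lt_one (show 0 < ρ x₀ / 4 by positivity)
    (show (1/2:ℝ) < 1 by norm_num)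
  obtain ⟨R, hR⟩ := hKc.isBounded.exists_norm_le
  have hRv : ∀ x ∈ K, ∀ k, |x k - v k| ≤ R + ‖v‖ := by
    intro x hx k
    have h1 := norm_le_pi_norm x k
    have h2 := norm_le_pi_norm v k
    have h3 := hR x hx
    rw [Real.norm_eq_abs] at h1 h2
    calc |x k - v k| ≤ |x k| + |v k| := abs_sub _ _
      _ ≤ R + ‖v‖ := by linarith
  let M : ℤ := ⌈(R + ‖v‖) * 2 ^ N⌉ + 1
  have hfin : (Set.Finite {p : ℕ × (Fin 3 → ℤ) | p.1 ≤ N ∧ ∀ k, p.2 k ∈ Icc (-M) M}) := by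
    have : ((Iic N : Set ℕ) ×ˢ {f : Fin 3 → ℤ | ∀ k, f k ∈ Icc (-M) M}).Finite :=
      (finite_Iic N).prod (Set.Finite.pi' fun _ => finite_Icc (-M) M)
    exact this.subset fun p hp => ⟨hp.1, hp.2⟩
  refine hfin.subset ?_
  rintro ⟨m, z⟩ ⟨ht, x, hxd, hxK⟩
  simp only at ht hxd
  have hm4 := (tile_bounds hρ ht hxd).2
  have hρx : ρ x₀ ≤ ρ x := hmin hxK
  have hmN : m ≤ N := by
    by_contra hlt
    push Not at hlt
    have h1 : (1:ℝ) / 2 ^ m ≤ 1 / 2 ^ N := by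
      apply one_div_le_one_div_of_le (by positivity)
      exact pow_le_pow_right₀ (by norm_num) hlt.le
    have h2 : (1:ℝ) / 2 ^ N < ρ x₀ / 4 := by rwa [one_div, ← inv_pow, inv_eq_one_div]
    have h3 : (4:ℝ) / 2 ^ m = 4 * (1 / 2 ^ m) := by ring
    rw [h3] at hm4
    linarith
  refine ⟨hmN, fun k => ?_⟩
  have hp : (0:ℝ) < 2 ^ m := by positivity
  have hk := hxd k
  have hb := abs_le.1 (hRv x hxK k)
  have hRnn : 0 ≤ R + ‖v‖ := (abs_nonneg _).trans (hRv x hxK k)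
  have h2m : (2:ℝ) ^ m ≤ 2 ^ N := pow_le_pow_right₀ (by norm_num) hmN
  have hceil := Int.le_ceil ((R + ‖v‖) * 2 ^ N)
  have hle : (R + ‖v‖) * 2 ^ m ≤ (R + ‖v‖) * 2 ^ N := mul_le_mul_of_nonneg_left h2m hRnn
  have h5 : (z k : ℝ) ≤ (R + ‖v‖) * 2 ^ m := by
    have : (z k : ℝ) / 2 ^ m ≤ R + ‖v‖ := by linarith [hk.1]
    rwa [div_le_iff₀ hp] at this
  have h6 : -((R + ‖v‖) * 2 ^ m) ≤ (z k : ℝ) + 1 := by
    have : -(R + ‖v‖) ≤ ((z k : ℝ) + 1) / 2 ^ m := by linarith [hk.2]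
    rw [le_div_iff₀ hp] at this
    linarith
  constructor
  · have : -((⌈(R + ‖v‖) * 2 ^ N⌉ : ℤ) : ℝ) ≤ (z k : ℝ) + 1 := by linarith
    have : -⌈(R + ‖v‖) * 2 ^ N⌉ ≤ z k + 1 := by exact_mod_cast this
    show -(⌈(R + ‖v‖) * 2 ^ N⌉ + 1) ≤ z k
    omega
  · have : (z k : ℝ) ≤ ((⌈(R + ‖v‖) * 2 ^ N⌉ : ℤ) : ℝ) := by linarith
    have : z k ≤ ⌈(R + ‖v‖) * 2 ^ N⌉ := by exact_mod_cast this
    show z k ≤ ⌈(R + ‖v‖) * 2 ^ N⌉ + 1
    omega

end P073.KW
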