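import Vale.Agent.P073.PR720.Cx
import Vale.Agent.P073.Net.Defs

/-!
# P073, block KW: rational convex tilings (definitions and specifications)
-/

open Set Metric Topology Filter

namespace P073.KW

open Vale.Agent.P073.St (V)
open P073.Net P073.PR720

/-- rational affine functions `x ↦ ∑ k, n k * (x k - o k) - c` -/
def rf (o : V) (h : (Fin 3 → ℚ) × ℚ) (x : V) : ℝ := ∑ k, (h.1 k : ℝ) * (x k - o k) - (h.2 : ℝ)

/-- finite intersections of rational half spaces (with respect to the origin `o`) -/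
def RatPoly (o : V) (C : Set V) : Prop :=
  ∃ H : Finset ((Fin 3 → ℚ) × ℚ), C = {x | ∀ h ∈ H, rf o h x ≤ 0}

/-- A locally finite tiling of `Ω` by rational convex polytopes (no face-to-face condition). -/
structure Tiling (Ω : Set V) (o : V) where
  /-- the index type -/
  I : Type
  /-- the cells -/
  C : I → Set V
  compact : ∀ i, IsCompact (C i)
  poly : ∀ i, RatPoly o (C i)
  int : ∀ i, (interior (C i)).Nonempty
  disj : ∀ i j, i ≠ j → Disjoint (interior (C i)) (interior (C j))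
  cover : ⋃ i, C i = Ω
  lf : LF C Ω

namespace Tiling

variable {Ω : Set V} {o : V}

/-- the one-skeleton: points in three cells -/
def K1 (T : Tiling Ω o) : Set V :=
  {x | ∃ i j k, i ≠ j ∧ i ≠ k ∧ j ≠ k ∧ x ∈ T.C i ∧ x ∈ T.C j ∧ x ∈ T.C k}

/-- near `x` all cells are invariant in direction `w` -/
def Inv (T : Tiling Ω o) (x w : V) : Prop :=
  ∃ r > 0, ∀ i, ∀ y ∈ ball x r, ∀ t : ℝ, y + t • w ∈ ball x r → (y ∈ T.C i ↔ y + t • w ∈ T.C i)

/-- the vertices: the points of `Ω` with no direction of invariance -/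
def K0 (T : Tiling Ω o) : Set V := {x | x ∈ Ω ∧ ∀ w, T.Inv x w → w = 0}

/-- the closed sector (wedge) with axis `w` spanned by `u`, `u'` -/
def _root_.P073.KW.Sec (w u u' : V) : Set V :=
  {y | ∃ s t z : ℝ, 0 ≤ s ∧ 0 ≤ t ∧ y = s • u + t • u' + z • w}

/-- the open sector -/
def _root_.P073.KW.OSec (w u u' : V) : Set V :=
  {y | ∃ s t z : ℝ, 0 < s ∧ 0 < t ∧ y = s • u + t • u' + z • w}

/-- **Structure at an edge point `x`**: `w` = direction of the edge; the four wedges spanned by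
`w` and consecutive vectors `u 0, u 1, u 2, u 3` (cyclically) tile the space; near `x` the wedge
number `j` is in the cell `c j`; opposite cells are different, and at most two neighbouring ones
are equal (so `3` or `4` cells). -/
structure FourSec (T : Tiling Ω o) (x w : V) (u : ZMod 4 → V) (c : ZMod 4 → T.I) (r : ℝ) :
    Prop where
  pos : 0 < r
  ball : ball x r ⊆ Ω
  mem : ∀ i, (T.C i ∩ Metric.ball x r).Nonempty → ∃ j, i = c j
  indep : ∀ j, LinearIndependent ℝ ![w, u j, u (j + 1)]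
  cover : ∀ y, ∃ j, y ∈ Sec w (u j) (u (j + 1))
  disj : ∀ j k, j ≠ k → Disjoint (OSec w (u j) (u (j + 1))) (Sec w (u k) (u (k + 1)))
  sub : ∀ j, ∀ y, y ∈ Sec w (u j) (u (j + 1)) → x + y ∈ Metric.ball x r → x + y ∈ T.C (c j)
  osub : ∀ j, ∀ y, y ∈ OSec w (u j) (u (j + 1)) → x + y ∈ Metric.ball x r →
    x + y ∈ interior (T.C (c j))
  diag : ∀ j, c j ≠ c (j + 2)
  adj : ∀ j, c j = c (j + 1) → c (j + 2) ≠ c (j + 3)

/-- the tiling has at most four cells at its edge points -/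
def Good (T : Tiling Ω o) : Prop := ∀ x ∈ T.K1, x ∉ T.K0 → ∃ w u c r, T.FourSec x w u c r

/-- relative frontier of a subset of the plane `{n = c}` -/
def _root_.P073.KW.rfr (n : V →L[ℝ] ℝ) (c : ℝ) (q : Set V) : Set V :=
  {y | y ∈ q ∧ ∀ r > 0, ∃ z ∈ Metric.ball y r, n z = c ∧ z ∉ q}

end Tiling

/-- a point of `o + ℚ³` -/
def Rat (o a : V) : Prop := ∀ k, ∃ q : ℚ, a k = o k + q

/-- (KW-K0) the vertices are isolated (so they form a closed, discrete, countable subset) -/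
def SpecK0 : Prop :=
  ∀ (Ω : Set V) (o : V) (T : Tiling Ω o), IsOpen Ω → T.K0.Countable ∧
    ∀ x ∈ Ω, ∃ r > 0, T.K0 ∩ ball x r ⊆ {x}

/-- (KW-1) near a point off the one-skeleton there are at most two cells; if there are two then
they are separated by a plane near the point -/
def SpecTwo : Prop :=
  ∀ (Ω : Set V) (o : V) (T : Tiling Ω o), IsOpen Ω → ∀ x ∈ Ω, x ∉ T.K1 →
    (∃ i, ∃ r > 0, ball x r ⊆ interior (T.C i)) ∨
    ∃ i j, i ≠ j ∧ x ∈ T.C i ∧ x ∈ T.C j ∧ ∃ n : V →L[ℝ] ℝ, n ≠ 0 ∧ ∃ r > 0,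
      (∀ k, (T.C k ∩ ball x r).Nonempty → k = i ∨ k = j) ∧
      (∀ y ∈ ball x r, (y ∈ T.C i ↔ n y ≤ n x) ∧ (y ∈ T.C j ↔ n x ≤ n y))

/-- (KW-2) faces: two cells with a common point off the one-skeleton have a common face, whose
relative frontier is its intersection with the one-skeleton -/
def SpecFace : Prop :=
  ∀ (Ω : Set V) (o : V) (T : Tiling Ω o), IsOpen Ω → ∀ i j, i ≠ j →
    (∃ x ∈ T.C i ∩ T.C j, x ∉ T.K1) → ∃ n : V →L[ℝ] ℝ, ∃ c : ℝ, n ≠ 0 ∧
      T.C i ⊆ {x | n x ≤ c} ∧ T.C j ⊆ {x | c ≤ n x} ∧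
      T.C i ∩ T.C j ∩ T.K1 = rfr n c (T.C i ∩ T.C j)

/-- (KW-3) edges are on rational segments -/
def SpecEdge : Prop :=
  ∀ (Ω : Set V) (o : V) (T : Tiling Ω o), IsOpen Ω → ∀ i j k, i ≠ j → i ≠ k → j ≠ k →
    ∀ x ∈ T.C i ∩ T.C j ∩ T.C k, x ∉ T.K0 → ∃ a b, Rat o a ∧ Rat o b ∧ a ≠ b ∧
      segment ℝ a b ⊆ Ω ∧ T.C i ∩ T.C j ∩ T.C k ⊆ segment ℝ a b ∧ x ∈ openSegment ℝ a b ∧
      T.Inv x (b - a)

/-- (KW-4) the two cells of neighbouring, different wedges at an edge point have a common face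
which contains the edge point -/
def SpecAdj : Prop :=
  ∀ (Ω : Set V) (o : V) (T : Tiling Ω o), IsOpen Ω → ∀ x w u c r, T.FourSec x w u c r →
    ∀ j, c j ≠ c (j + 1) → ∀ s > 0, x + s • u (j + 1) ∈ ball x r →
      x + s • u (j + 1) ∈ T.C (c j) ∩ T.C (c (j + 1)) ∧ x + s • u (j + 1) ∉ T.K1

/-- (KW-E) **existence** of good rational tilings containing a given rational graph in the
one-skeleton, with small cells -/
def SpecExists : Prop :=
  ∀ (Ω : Set V) (o : V) (G : Net.Graph Ω) (ε : V → ℝ), IsOpen Ω → SizeFn Ω ε →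
    (∀ i, Rat o (G.a i) ∧ Rat o (G.b i)) →
    ∃ T : Tiling Ω o, T.Good ∧ (∀ i, segment ℝ (G.a i) (G.b i) ⊆ T.K1) ∧
      ∀ i, ∀ x ∈ T.C i, ∀ y ∈ T.C i, ‖x - y‖ ≤ ε x

/-- (KW-B3) three-dimensional polytopes are conical balls -/
def SpecBall3 : Prop :=
  ∀ (o : V) (C : Set V), RatPoly o C → IsCompact C → (interior C).Nonempty →
    ConBall 3 C (frontier C)

/-- (KW-B2) polygons are conical discs -/
def SpecBall2 : Prop :=
  ∀ (o : V) (C : Set V) (n : V →L[ℝ] ℝ) (c : ℝ), n ≠ 0 → RatPoly o C → IsCompact C →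
    C ⊆ {x | n x = c} → (∃ y ∈ C, ∃ r > 0, ∀ z ∈ ball y r, n z = c → z ∈ C) →
    ConBall 2 C (rfr n c C)

end P073.KW
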